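import Crest.Agent.R178.Resolution

/-!
The filtered algebra `AA` on generators `e h f t v₁ v₂`.
-/

set_option autoImplicit false

namespace Crest.Agent.R178

/-- The six generators. -/
inductive Gen : Type
  | e | h | f | t | v₁ | v₂

open Gen

/-- The defining relations. -/
structure Rels {B : Type} [Ring B] (g : Gen → B) : Prop where
  he : g h * g e = g e * g h + g e + g e
  hf : g h * g f = g f * g h - g f - g f
  ef : g e * g f = g f * g e + g h
  te : g t * g e = g e * g t
  th : g t * g h = g h * g t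
  tf : g t * g f = g f * g t
  ev₁ : g e * g v₁ = g v₁ * g e
  ev₂ : g e * g v₂ = g v₂ * g e + g v₁
  hv₁ : g h * g v₁ = g v₁ * g h + g v₁
  hv₂ : g h * g v₂ = g v₂ * g h - g v₂
  fv₁ : g f * g v₁ = g v₁ * g f + g v₂
  fv₂ : g f * g v₂ = g v₂ * g f
  v₁t : g v₁ * g t = g v₁ * g h + g v₂ * g e + g v₂ * g e
  v₂t : g v₂ * g t = g v₁ * g f + g v₁ * g f - g v₂ * g h
  tv₁ : g t * g v₁ = g v₁ * g t + g v₁
  tv₂ : g t * g v₂ = g v₂ * g t + g v₂
  v₁₁ : g v₁ * g v₁ = 0
  v₁₂ : g v₁ * g v₂ = 0
  v₂₁ : g v₂ * g v₁ = 0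
  v₂₂ : g v₂ * g v₂ = 0

/-- Two elements of the free algebra are related when every solution of `Rels` identifies them. -/
def Rel (a b : FreeAlgebra ℂ Gen) : Prop :=
  ∀ (B : Type) [Ring B] [Algebra ℂ B] (g : Gen → B), Rels g →
    FreeAlgebra.lift ℂ g a = FreeAlgebra.lift ℂ g b

/-- The universal solution of `Rels`. -/
def AA : Type := RingQuot Rel

noncomputable instance : Ring AA := inferInstanceAs (Ring (RingQuot Rel))
noncomputable instance : Algebra ℂ AA := inferInstanceAs (Algebra ℂ (RingQuot Rel))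

/-- The quotient map. -/
noncomputable def mkA : FreeAlgebra ℂ Gen →ₐ[ℂ] AA := RingQuot.mkAlgHom ℂ Rel

/-- The generators in `AA`. -/
noncomputable def γ (g : Gen) : AA := mkA (FreeAlgebra.ι ℂ g)

lemma mkA_surj : Function.Surjective mkA := RingQuot.mkAlgHom_surjective ℂ Rel

lemma mkA_rel {a b : FreeAlgebra ℂ Gen} (h : Rel a b) : mkA a = mkA b :=
  RingQuot.mkAlgHom_rel ℂ h

lemma rels_γ : Rels γ := by
  constructor
  all_goals
    simp only [γ, ← map_mul, ← map_add, ← map_sub]
    first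
      | apply mkA_rel
      | (rw [← map_zero mkA]; apply mkA_rel)
    intro B _ _ g hg
    simp [hg.he, hg.hf, hg.ef, hg.te, hg.th, hg.tf, hg.ev₁, hg.ev₂, hg.hv₁, hg.hv₂, hg.fv₁,
      hg.fv₂, hg.v₁t, hg.v₂t, hg.tv₁, hg.tv₂, hg.v₁₁, hg.v₁₂, hg.v₂₁, hg.v₂₂]

/-- The universal property. -/
noncomputable def liftA {B : Type} [Ring B] [Algebra ℂ B] (g : Gen → B) (hg : Rels g) :
    AA →ₐ[ℂ] B :=
  RingQuot.liftAlgHom ℂ ⟨FreeAlgebra.lift ℂ g, fun _ _ h => h B g hg⟩

@[simp] lemma liftA_γ {B : Type} [Ring B] [Algebra ℂ B] (g : Gen → B) (hg : Rels g) (x : Gen) :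
    liftA g hg (γ x) = g x := by
  unfold liftA γ mkA
  erw [RingQuot.liftAlgHom_mkAlgHom_apply]
  simp

lemma AA_induction {P : AA → Prop} (hc : ∀ c : ℂ, P (algebraMap ℂ AA c)) (hg : ∀ g, P (γ g))
    (hmul : ∀ a b, P a → P b → P (a * b)) (hadd : ∀ a b, P a → P b → P (a + b)) (a : AA) :
    P a := by
  obtain ⟨x, rfl⟩ := mkA_surj a
  induction x using FreeAlgebra.induction with
  | grade0 c => rw [AlgHom.commutes]; exact hc c
  | grade1 g => exact hg g
  | mul a b ha hb => rw [map_mul]; exact hmul _ _ ha hb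
  | add a b ha hb => rw [map_add]; exact hadd _ _ ha hb

/-- The weights of the generators. -/
def wt : Gen → ℤ
  | e => 1
  | h => 1
  | f => 1
  | t => 1
  | v₁ => -1
  | v₂ => -1

/-- The word filtration. -/
noncomputable def GG (r : ℤ) : Submodule ℂ AA :=
  Submodule.span ℂ {x | ∃ l : List Gen, (l.map wt).sum ≤ r ∧ (l.map γ).prod = x}

lemma GG_mono : Monotone GG := fun _ _ hrs =>
  Submodule.span_mono fun _ ⟨l, hl, hx⟩ => ⟨l, hl.trans hrs, hx⟩

lemma one_mem_GG : (1 : AA) ∈ GG 0 := Submodule.subset_span ⟨[], le_rfl, rfl⟩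

lemma γ_mem_GG (g : Gen) : γ g ∈ GG (wt g) := Submodule.subset_span ⟨[g], by simp, by simp⟩

lemma mul_mem_GG {r s : ℤ} {a b : AA} (ha : a ∈ GG r) (hb : b ∈ GG s) : a * b ∈ GG (r + s) := by
  induction ha using Submodule.span_induction with
  | zero => rw [zero_mul]; exact Submodule.zero_mem _
  | add x y _ _ hx hy => rw [add_mul]; exact Submodule.add_mem _ hx hy
  | smul c x _ hx => rw [smul_mul_assoc]; exact Submodule.smul_mem _ _ hx
  | mem x hx =>
    induction hb using Submodule.span_induction with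
    | zero => rw [mul_zero]; exact Submodule.zero_mem _
    | add x y _ _ hx hy => rw [mul_add]; exact Submodule.add_mem _ hx hy
    | smul c x _ hx => rw [mul_smul_comm]; exact Submodule.smul_mem _ _ hx
    | mem y hy =>
      obtain ⟨l, hl, rfl⟩ := hx
      obtain ⟨l', hl', rfl⟩ := hy
      exact Submodule.subset_span ⟨l ++ l', by simpa using add_le_add hl hl', by simp⟩

/-- The filtration as a `Filt`. -/
noncomputable def ΦA : Filt ℂ AA := ⟨GG, one_mem_GG, mul_mem_GG⟩

lemma pow_mem_GG {a : AA} (ha : a ∈ GG 1) (n : ℕ) : a ^ n ∈ GG n := by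
  induction n with
  | zero => simpa using one_mem_GG
  | succ n ih =>
    rw [pow_succ]
    simpa using mul_mem_GG ih ha

/-- A filtration of a representation compatible with the generators is compatible with `GG`. -/
lemma GG_act {M : Type} [AddCommGroup M] [Module ℂ M] (φ : AA →ₐ[ℂ] Module.End ℂ M)
    (FM : ℤ → Submodule ℂ M) (hmono : Monotone FM)
    (hg : ∀ g r x, x ∈ FM r → φ (γ g) x ∈ FM (wt g + r)) {r s : ℤ} {a : AA} {x : M}
    (ha : a ∈ GG r) (hx : x ∈ FM s) : φ a x ∈ FM (r + s) := by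
  induction ha using Submodule.span_induction with
  | zero => simp
  | add x y _ _ hx hy => rw [map_add]; exact Submodule.add_mem _ hx hy
  | smul c x _ hx => rw [map_smul]; exact Submodule.smul_mem _ _ hx
  | mem y hy =>
    obtain ⟨l, hl, rfl⟩ := hy
    have : φ (l.map γ).prod x ∈ FM ((l.map wt).sum + s) := by
      clear hl
      induction l with
      | nil => simpa using hx
      | cons g l ih =>
        simp only [List.map_cons, List.prod_cons, List.sum_cons, map_mul, Module.End.mul_apply]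
        rw [add_assoc]
        exact hg _ _ _ ih
    exact hmono (by linarith) this

/-- Inner derivations preserving the degree of generators preserve the filtration. -/
lemma GG_comm (x : AA) (hx : ∀ g, x * γ g - γ g * x ∈ GG (wt g)) {r : ℤ} {a : AA}
    (ha : a ∈ GG r) : x * a - a * x ∈ GG r := by
  induction ha using Submodule.span_induction with
  | zero => simp
  | add a b _ _ ha hb =>
    have : x * (a + b) - (a + b) * x = (x * a - a * x) + (x * b - b * x) := by noncomm_ring
    rw [this]; exact Submodule.add_mem _ ha hb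
  | smul c a _ ha =>
    rw [mul_smul_comm, smul_mul_assoc, ← smul_sub]; exact Submodule.smul_mem _ _ ha
  | mem y hy =>
    obtain ⟨l, hl, rfl⟩ := hy
    refine GG_mono hl ?_
    clear hl
    induction l with
    | nil => simp
    | cons g l ih =>
      simp only [List.map_cons, List.prod_cons, List.sum_cons]
      have : x * (γ g * (l.map γ).prod) - γ g * (l.map γ).prod * x =
          (x * γ g - γ g * x) * (l.map γ).prod +
            γ g * (x * (l.map γ).prod - (l.map γ).prod * x) := by noncomm_ring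
      rw [this]
      exact Submodule.add_mem _
        (mul_mem_GG (hx g) (Submodule.subset_span ⟨l, le_rfl, rfl⟩))
        (mul_mem_GG (γ_mem_GG g) ih)

lemma e_mem : γ e ∈ GG 1 := γ_mem_GG e
lemma h_mem : γ h ∈ GG 1 := γ_mem_GG h
lemma f_mem : γ f ∈ GG 1 := γ_mem_GG f
lemma t_mem : γ t ∈ GG 1 := γ_mem_GG t
lemma v₁_mem : γ v₁ ∈ GG (-1) := γ_mem_GG v₁
lemma v₂_mem : γ v₂ ∈ GG (-1) := γ_mem_GG v₂

lemma e_comm {r : ℤ} {a : AA} (ha : a ∈ GG r) : γ e * a - a * γ e ∈ GG r := by
  refine GG_comm _ (fun g => ?_) ha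
  have R := rels_γ
  cases g
  · simp
  · rw [R.he]
    have : γ e * γ h - (γ e * γ h + γ e + γ e) = -(γ e + γ e) := by abel
    rw [this]; exact Submodule.neg_mem _ (Submodule.add_mem _ e_mem e_mem)
  · rw [R.ef, add_sub_cancel_left]; exact h_mem
  · rw [R.te]; simp
  · rw [R.ev₁]; simp
  · rw [R.ev₂, add_sub_cancel_left]; exact v₁_mem

lemma h_comm {r : ℤ} {a : AA} (ha : a ∈ GG r) : γ h * a - a * γ h ∈ GG r := by
  refine GG_comm _ (fun g => ?_) ha
  have R := rels_γ
  cases g
  · rw [R.he]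
    have : (γ e * γ h + γ e + γ e) - γ e * γ h = γ e + γ e := by abel
    rw [this]; exact Submodule.add_mem _ e_mem e_mem
  · simp
  · rw [R.hf]
    have : (γ f * γ h - γ f - γ f) - γ f * γ h = -(γ f + γ f) := by abel
    rw [this]; exact Submodule.neg_mem _ (Submodule.add_mem _ f_mem f_mem)
  · rw [R.th]; simp
  · rw [R.hv₁, add_sub_cancel_left]; exact v₁_mem
  · rw [R.hv₂]
    have : (γ v₂ * γ h - γ v₂) - γ v₂ * γ h = -γ v₂ := by abel
    rw [this]; exact Submodule.neg_mem _ v₂_mem

end Crest.Agent.R178
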