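import Crest.Agent.R178.PBW

/-!
The degree filtration on the PBW model and its comparison with the word filtration.
-/

set_option autoImplicit false
set_option linter.unusedSimpArgs false

namespace Crest.Agent.R178

open Gen MvPolynomial

/-- total degree of an exponent vector -/
def dg (m : Fin 3 →₀ ℕ) : ℤ := (m 0 : ℤ) + m 1 + m 2

/-- the degree filtration on `PP` -/
def FP (r : ℤ) : Submodule ℂ PP where
  carrier := {p | ∀ m, r < dg m → coeff m p = 0}
  add_mem' ha hb m hm := by rw [coeff_add, ha m hm, hb m hm, add_zero]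
  zero_mem' _ _ := rfl
  smul_mem' c _ ha m hm := by rw [coeff_smul, ha m hm, smul_zero]

lemma mem_FP {r : ℤ} {p : PP} : p ∈ FP r ↔ ∀ m, r < dg m → coeff m p = 0 := Iff.rfl

lemma FP_mono : Monotone FP := fun _ _ hrs _ hp m hm => hp m (lt_of_le_of_lt hrs hm)

lemma dg_nonneg (m : Fin 3 →₀ ℕ) : 0 ≤ dg m := by unfold dg; positivity

lemma FP_neg {r : ℤ} (hr : r < 0) {p : PP} (hp : p ∈ FP r) : p = 0 :=
  MvPolynomial.ext _ _ fun m => hp m (lt_of_lt_of_le hr (dg_nonneg m))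

lemma FP_le {r : ℤ} (U : Submodule ℂ PP)
    (h : ∀ a b c : ℕ, (a : ℤ) + b + c ≤ r → mon a b c ∈ U) : FP r ≤ U := by
  intro p hp
  rw [p.as_sum]
  refine U.sum_mem fun m hm => ?_
  have : monomial m (coeff m p) = coeff m p • mon (m 0) (m 1) (m 2) := by
    rw [← monomial_eq_mon, smul_monomial, smul_eq_mul, mul_one]
  rw [this]
  refine U.smul_mem _ (h _ _ _ ?_)
  by_contra hc
  exact (mem_support_iff.1 hm) (hp m (lt_of_not_ge hc))

lemma dg_single_add (i : Fin 3) (m : Fin 3 →₀ ℕ) : dg (Finsupp.single i 1 + m) = dg m + 1 := by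
  fin_cases i <;> simp [dg, Finsupp.single_apply] <;> ring

lemma mulX_mem (i : Fin 3) (r : ℤ) (p : PP) (hp : p ∈ FP r) : mulX i p ∈ FP (r + 1) := by
  intro m hm
  rw [mulX_apply, coeff_X_mul']
  split_ifs with h
  · apply hp
    have h1 : Finsupp.single i 1 + (m - Finsupp.single i 1) = m := by
      rw [add_comm]
      exact tsub_add_cancel_of_le (Finsupp.single_le_iff.2
        (Nat.one_le_iff_ne_zero.2 (Finsupp.mem_support_iff.1 h)))
    have h2 := dg_single_add i (m - Finsupp.single i 1)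
    rw [h1] at h2
    omega
  · rfl

lemma dE_mem (r : ℤ) (p : PP) (hp : p ∈ FP r) : dE p ∈ FP (r - 1) := by
  intro m hm
  change coeff m (pderiv 0 p) = 0
  rw [coeff_pderiv, hp, zero_mul]
  rw [add_comm, dg_single_add]
  omega

lemma one_mem_FP : (1 : PP) ∈ FP 0 := by
  intro m hm
  rw [coeff_one, if_neg]
  rintro rfl
  simp [dg] at hm

lemma pow_mul_mem {q : PP} (hq : ∀ r p, p ∈ FP r → q * p ∈ FP (r + 1)) (n : ℕ) (r : ℤ) (p : PP)
    (hp : p ∈ FP r) : q ^ n * p ∈ FP (r + n) := by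
  induction n with
  | zero => simpa using hp
  | succ n ih =>
    rw [pow_succ', mul_assoc, Nat.cast_succ, ← add_assoc]
    exact hq _ _ ih

lemma τ_mem (r : ℤ) (p : PP) (hp : p ∈ FP r) : τ p ∈ FP r := by
  refine FP_le (U := (FP r).comap τ.toLinearMap) (fun a b c h => ?_) hp
  have h1 : ∀ r p, p ∈ FP r → (X 1 + 1 + 1 : PP) * p ∈ FP (r + 1) := fun r p hp => by
    have := FP_mono (show r ≤ r + 1 by omega) hp
    rw [add_mul, add_mul, one_mul]
    exact Submodule.add_mem _ (Submodule.add_mem _ (mulX_mem 1 r p hp) this) this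
  have h2 := pow_mul_mem (mulX_mem 0) a _ _ (pow_mul_mem h1 b _ _
    (pow_mul_mem (mulX_mem 2) c _ _ one_mem_FP))
  have h3 : τ (mon a b c) = X 0 ^ a * ((X 1 + 1 + 1) ^ b * (X 2 ^ c * 1)) := by
    simp [mon, mul_assoc]
  change τ (mon a b c) ∈ FP r
  rw [h3]
  exact FP_mono (by omega) h2

lemma slP_e_mem (r : ℤ) (p : PP) (hp : p ∈ FP r) : slP.e p ∈ FP (r + 1) := mulX_mem 0 r p hp

lemma slP_h_mem (r : ℤ) (p : PP) (hp : p ∈ FP r) : slP.h p ∈ FP (r + 1) := by
  have h1 : X 0 * dE p ∈ FP (r + 1) := FP_mono (by omega) (mulX_mem 0 _ _ (dE_mem r p hp))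
  exact Submodule.add_mem _ (Submodule.add_mem _ (mulX_mem 1 r p hp) h1) h1

lemma slP_f_mem (r : ℤ) (p : PP) (hp : p ∈ FP r) : slP.f p ∈ FP (r + 1) := by
  have h1 : X 1 * dE p ∈ FP (r + 1) := FP_mono (by omega) (mulX_mem 1 _ _ (dE_mem r p hp))
  have h2 : X 0 * dE (dE p) ∈ FP (r + 1) :=
    FP_mono (by omega) (mulX_mem 0 _ _ (dE_mem _ _ (dE_mem r p hp)))
  exact Submodule.sub_mem _ (Submodule.sub_mem _ (mulX_mem 2 _ _ (τ_mem r p hp)) h1) h2

lemma ev_mem {r : ℤ} {a : AA} (ha : a ∈ GG r) : ev a ∈ QF FP r := by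
  have h1 : emb PP 1 ∈ QF FP 0 := by
    refine ⟨fun k => ?_, Submodule.zero_mem _, Submodule.zero_mem _⟩
    rw [emb_apply]
    cases k with
    | zero => simpa using one_mem_FP
    | succ k => simp
  have := slP.Qrep_mem FP_mono slP_e_mem slP_h_mem slP_f_mem ha h1
  rwa [add_zero] at this

lemma mon_mem_GG (a b c : ℕ) : γ e ^ a * γ h ^ b * γ f ^ c ∈ GG ((a : ℤ) + b + c) :=
  mul_mem_GG (mul_mem_GG (pow_mem_GG e_mem a) (pow_mem_GG h_mem b)) (pow_mem_GG f_mem c)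

lemma σ₀_mem {r : ℤ} {p : PP} (hp : p ∈ FP r) : σ₀ p ∈ GG r := by
  refine FP_le (U := (GG r).comap σ₀) (fun a b c h => ?_) hp
  rw [Submodule.mem_comap, σ₀_mon]
  exact GG_mono h (mon_mem_GG a b c)

/-- reduction of statements about `σ` to statements about `σ₀` -/
lemma σ_like {φ : Q PP →ₗ[ℂ] AA} {φ₀ : PP →ₗ[ℂ] AA}
    (h₀ : ∀ r p, p ∈ FP r → φ₀ p ∈ GG r)
    (h₁ : ∀ k p, φ (Finsupp.single k p, 0) = γ t ^ k * φ₀ p)
    (h₂ : ∀ p, φ (0, p, 0) = γ v₁ * φ₀ p) (h₃ : ∀ p, φ (0, 0, p) = γ v₂ * φ₀ p)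
    {r : ℤ} {x : Q PP} (hx : x ∈ QF FP r) : φ x ∈ GG r := by
  refine QF_le (U := (GG r).comap φ) (fun k p hp => ?_) (fun p hp => ?_) (fun p hp => ?_) hx
  · rw [Submodule.mem_comap, h₁]
    have := mul_mem_GG (pow_mem_GG t_mem k) (h₀ _ _ hp)
    rwa [add_sub_cancel] at this
  · rw [Submodule.mem_comap, h₂]
    have := mul_mem_GG v₁_mem (h₀ _ _ hp)
    rwa [show -1 + (r + 1) = r by ring] at this
  · rw [Submodule.mem_comap, h₃]
    have := mul_mem_GG v₂_mem (h₀ _ _ hp)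
    rwa [show -1 + (r + 1) = r by ring] at this

lemma σ_mem {r : ℤ} {x : Q PP} (hx : x ∈ QF FP r) : σ x ∈ GG r :=
  σ_like (fun _ _ => σ₀_mem) (fun k p => by simp [σ_single])
    (fun p => by simp [σ_zero, σV_apply]) (fun p => by simp [σ_zero, σV_apply]) hx

lemma GG_bot {r : ℤ} (hr : r ≤ -2) {a : AA} (ha : a ∈ GG r) : a = 0 := by
  have h := ev_mem ha
  have : ev a = 0 := Q_ext (fun k => FP_neg (by omega) (h.1 k)) (FP_neg (by omega) h.2.1)
    (FP_neg (by omega) h.2.2)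
  rw [← σ_ev a, this, map_zero]

lemma GG_fd (r : ℤ) : FiniteDimensional ℂ (GG r) := by
  obtain ⟨n, hn⟩ : ∃ n : ℕ, r + 1 < n := ⟨(r + 2).toNat, by omega⟩
  let z : Fin n ⊕ Fin 2 → AA := Sum.elim (fun k => γ t ^ (k : ℕ)) ![γ v₁, γ v₂]
  let w : (Fin n ⊕ Fin 2) × Fin n × Fin n × Fin n → AA := fun x =>
    z x.1 * (γ e ^ (x.2.1 : ℕ) * γ h ^ (x.2.2.1 : ℕ) * γ f ^ (x.2.2.2 : ℕ))
  have hfd : FiniteDimensional ℂ (Submodule.span ℂ (Set.range w)) :=
    FiniteDimensional.span_of_finite ℂ (Set.finite_range w)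
  have key : ∀ (i : Fin n ⊕ Fin 2) (s : ℤ), s ≤ r + 1 → ∀ p ∈ FP s,
      z i * σ₀ p ∈ Submodule.span ℂ (Set.range w) := by
    intro i s hs p hp
    refine FP_le (U := (Submodule.span ℂ (Set.range w)).comap (LinearMap.mulLeft ℂ (z i) ∘ₗ σ₀))
      (fun a b c h => ?_) hp
    rw [Submodule.mem_comap, LinearMap.comp_apply, LinearMap.mulLeft_apply, σ₀_mon]
    exact Submodule.subset_span
      ⟨(i, ⟨a, by omega⟩, ⟨b, by omega⟩, ⟨c, by omega⟩), rfl⟩
  refine Submodule.finiteDimensional_of_le (S₂ := Submodule.span ℂ (Set.range w)) fun a ha => ?_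
  rw [← σ_ev a]
  refine QF_le (U := (Submodule.span ℂ (Set.range w)).comap σ) (fun k p hp => ?_)
    (fun p hp => ?_) (fun p hp => ?_) (ev_mem ha)
  · rw [Submodule.mem_comap, σ_single, map_zero, add_zero]
    by_cases hk : r - k < 0
    · rw [FP_neg hk hp, map_zero, mul_zero]
      exact Submodule.zero_mem _
    · exact key (Sum.inl ⟨k, by omega⟩) _ (by omega) p hp
  · rw [Submodule.mem_comap, σ_zero, σV_apply, map_zero, mul_zero, add_zero]
    exact key (Sum.inr 0) _ le_rfl p hp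
  · rw [Submodule.mem_comap, σ_zero, σV_apply, map_zero, mul_zero, zero_add]
    exact key (Sum.inr 1) _ le_rfl p hp

/-! ### symbols of right multiplications -/

lemma approx_of {x : AA} {i : Fin 3}
    (h : ∀ a b c : ℕ, γ e ^ a * γ h ^ b * γ f ^ c * x - σ₀ (X i * mon a b c) ∈
      GG ((a : ℤ) + b + c)) {r : ℤ} {a : AA} (ha : a ∈ GG r) :
    a * x - σ (mapQ (mulX i) (ev a)) ∈ GG r := by
  have h₀ : ∀ r p, p ∈ FP r → (LinearMap.mulRight ℂ x ∘ₗ σ₀ - σ₀ ∘ₗ mulX i) p ∈ GG r := by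
    intro r p hp
    refine FP_le (U := (GG r).comap _) (fun a b c habc => ?_) hp
    rw [Submodule.mem_comap]
    simp only [LinearMap.sub_apply, LinearMap.comp_apply, LinearMap.mulRight_apply, σ₀_mon,
      mulX_apply]
    exact GG_mono habc (h a b c)
  have := σ_like (φ := LinearMap.mulRight ℂ x ∘ₗ σ - σ ∘ₗ mapQ (mulX i)) h₀
    (fun k p => by simp [σ_single, mapQ_single, σV_apply, mul_sub, mul_assoc])
    (fun p => by simp [σ_zero, mapQ_apply, σV_apply, mul_sub, mul_assoc])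
    (fun p => by simp [σ_zero, mapQ_apply, σV_apply, mul_sub, mul_assoc]) (ev_mem ha)
  simpa [σ_ev] using this

lemma approx_f {r : ℤ} {a : AA} (ha : a ∈ GG r) : a * γ f - σ (mapQ (mulX 2) (ev a)) ∈ GG r := by
  refine approx_of (fun a b c => ?_) ha
  rw [mon_succ₂, σ₀_mon, pow_succ, mul_assoc (γ e ^ a * γ h ^ b), sub_self]
  exact Submodule.zero_mem _

lemma approx_h {r : ℤ} {a : AA} (ha : a ∈ GG r) : a * γ h - σ (mapQ (mulX 1) (ev a)) ∈ GG r := by
  refine approx_of (fun a b c => ?_) ha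
  rw [mon_succ₁, σ₀_mon, pow_succ]
  have : γ e ^ a * γ h ^ b * γ f ^ c * γ h - γ e ^ a * (γ h ^ b * γ h) * γ f ^ c =
      -(γ e ^ a * γ h ^ b * (γ h * γ f ^ c - γ f ^ c * γ h)) := by noncomm_ring
  rw [this]
  exact Submodule.neg_mem _ (mul_mem_GG (mul_mem_GG (pow_mem_GG e_mem a) (pow_mem_GG h_mem b))
    (h_comm (pow_mem_GG f_mem c)))

lemma approx_e {r : ℤ} {a : AA} (ha : a ∈ GG r) : a * γ e - σ (mapQ (mulX 0) (ev a)) ∈ GG r := by
  refine approx_of (fun a b c => ?_) ha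
  rw [mon_succ₀, σ₀_mon, pow_succ]
  have : γ e ^ a * γ h ^ b * γ f ^ c * γ e - γ e ^ a * γ e * γ h ^ b * γ f ^ c =
      -(γ e ^ a * (γ e * (γ h ^ b * γ f ^ c) - (γ h ^ b * γ f ^ c) * γ e)) := by noncomm_ring
  rw [this, add_assoc]
  exact Submodule.neg_mem _ (mul_mem_GG (pow_mem_GG e_mem a)
    (e_comm (mul_mem_GG (pow_mem_GG h_mem b) (pow_mem_GG f_mem c))))

/-! ### division by a variable -/

/-- division by a variable, dropping the remainder -/
noncomputable def divX (i : Fin 3) : PP →ₗ[ℂ] PP where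
  toFun p := p.divMonomial (Finsupp.single i 1)
  map_add' p q := add_divMonomial p q _
  map_smul' c p := by ext m; simp [coeff_divMonomial]

lemma coeff_divX (i : Fin 3) (p : PP) (m : Fin 3 →₀ ℕ) :
    coeff m (divX i p) = coeff (Finsupp.single i 1 + m) p := coeff_divMonomial _ _ _

lemma divX_mem (i : Fin 3) (r : ℤ) (p : PP) (hp : p ∈ FP r) : divX i p ∈ FP (r + -1) := by
  intro m hm
  rw [coeff_divX]
  apply hp
  rw [dg_single_add]
  omega

lemma divX_mulX (i : Fin 3) : divX i ∘ₗ mulX i = LinearMap.id :=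
  LinearMap.ext fun p => X_mul_divMonomial i p

lemma divX_mulX_ne {i j : Fin 3} (hij : i ≠ j) : divX i ∘ₗ mulX j = mulX j ∘ₗ divX i := by
  refine LinearMap.ext fun p => MvPolynomial.ext _ _ fun m => ?_
  simp only [LinearMap.comp_apply, coeff_divX, mulX_apply, coeff_X_mul', Finsupp.mem_support_iff,
    Finsupp.add_apply, Finsupp.single_eq_of_ne hij.symm, zero_add]
  split_ifs with h
  · congr 1
    ext l
    by_cases hl : l = j
    · subst hl; simp [Finsupp.single_eq_of_ne hij.symm]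
    · simp [Finsupp.single_eq_of_ne hl]
  · rfl

lemma mulX_comm (i j : Fin 3) : mulX i ∘ₗ mulX j = mulX j ∘ₗ mulX i :=
  LinearMap.ext fun p => by simp only [LinearMap.comp_apply, mulX_apply]; ring

/-- killing the monomials containing a variable -/
noncomputable def modX (i : Fin 3) : PP →ₗ[ℂ] PP := LinearMap.id - mulX i ∘ₗ divX i

lemma coeff_modX (i : Fin 3) (p : PP) (m : Fin 3 →₀ ℕ) :
    coeff m (modX i p) = if m i = 0 then coeff m p else 0 := by
  simp only [modX, LinearMap.sub_apply, LinearMap.id_apply, LinearMap.comp_apply, mulX_apply,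
    coeff_sub, coeff_X_mul', coeff_divX, Finsupp.mem_support_iff]
  by_cases h : m i = 0
  · simp [h]
  · have h1 : Finsupp.single i 1 + (m - Finsupp.single i 1) = m := by
      rw [add_comm]
      exact tsub_add_cancel_of_le (Finsupp.single_le_iff.2 (Nat.one_le_iff_ne_zero.2 h))
    simp [h, h1]

/-- constants -/
noncomputable def cst : ℂ →ₗ[ℂ] PP := monomial 0

lemma modX_all : modX 0 ∘ₗ modX 1 ∘ₗ modX 2 = cst ∘ₗ lcoeff ℂ 0 := by
  refine LinearMap.ext fun p => MvPolynomial.ext _ _ fun m => ?_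
  simp only [LinearMap.comp_apply, coeff_modX, cst, lcoeff_apply, coeff_monomial]
  by_cases h : 0 = m
  · subst h; simp
  · rw [if_neg h]
    split_ifs with h0 h1 h2 <;> try rfl
    exact absurd (Finsupp.ext fun l => by fin_cases l <;> simp [h0, h1, h2]) h

lemma lcoeff_mem (r : ℤ) (p : PP) (hp : p ∈ FP r) : lcoeff ℂ 0 p ∈ TF ℂ (r + 0) :=
  mem_TF.2 fun h => by rw [FP_neg (by omega) hp, map_zero]

lemma cst_mem (r : ℤ) (c : ℂ) (hc : c ∈ TF ℂ r) : cst c ∈ FP (r + 0) := by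
  intro m hm
  rw [cst, coeff_monomial]
  split_ifs with h
  · subst h
    exact mem_TF.1 hc (by simpa [dg] using hm)
  · rfl

lemma σ₀_cst (c : ℂ) : σ₀ (cst c) = c • 1 := by
  have : cst c = c • (1 : PP) := by rw [cst, one_def, smul_monomial, smul_eq_mul, mul_one]
  rw [this, map_smul, σ₀_one]

end Crest.Agent.R178
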