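import Crest.Agent.R178.Homological

/-!
From a `ℤ`-filtered algebra `A` with filtration `G` we build the "window algebra"
`Lam G N` of `N × N` matrices whose `(j, i)` entry lies in `G (j - i)`, and from a compatible
family of subgroups of an `A`-module we build a `Lam G N`-module.
-/

set_option autoImplicit false

universe u

namespace Crest.Agent.R178

variable {k : Type u} [Field k] {A : Type u} [Ring A] [Algebra k A]

/-- A multiplicative `ℤ`-indexed family of subspaces. -/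
structure Filt (k : Type u) [Field k] (A : Type u) [Ring A] [Algebra k A] where
  G : ℤ → Submodule k A
  one_mem : (1 : A) ∈ G 0
  mul_mem : ∀ {r s : ℤ} {a b : A}, a ∈ G r → b ∈ G s → a * b ∈ G (r + s)

variable (Φ : Filt k A) (N : ℕ)

/-- The window algebra. -/
def Lam : Subalgebra k (Matrix (Fin N) (Fin N) A) where
  carrier := {x | ∀ j i : Fin N, x j i ∈ Φ.G ((j : ℤ) - (i : ℤ))}
  mul_mem' := by
    intro x y hx hy j i
    rw [Matrix.mul_apply]
    refine Submodule.sum_mem _ fun l _ => ?_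
    have := Φ.mul_mem (hx j l) (hy l i)
    rwa [sub_add_sub_cancel] at this
  add_mem' := fun hx hy j i => Submodule.add_mem _ (hx j i) (hy j i)
  algebraMap_mem' := by
    intro c j i
    rw [Matrix.algebraMap_matrix_apply]
    split_ifs with h
    · subst h
      rw [sub_self, Algebra.algebraMap_eq_smul_one]
      exact Submodule.smul_mem _ _ Φ.one_mem
    · exact Submodule.zero_mem _

lemma Lam_mem {x : Matrix (Fin N) (Fin N) A} :
    x ∈ Lam Φ N ↔ ∀ j i : Fin N, x j i ∈ Φ.G ((j : ℤ) - (i : ℤ)) := Iff.rfl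

lemma Lam_finiteDimensional (h : ∀ r, FiniteDimensional k (Φ.G r)) :
    FiniteDimensional k (Lam Φ N) := by
  let φ : Lam Φ N →ₗ[k] (∀ j i : Fin N, Φ.G ((j : ℤ) - (i : ℤ))) :=
    { toFun := fun x j i => ⟨x.1 j i, x.2 j i⟩
      map_add' := fun _ _ => rfl
      map_smul' := fun _ _ => rfl }
  refine FiniteDimensional.of_injective φ fun x y hxy => ?_
  ext j i
  exact congrArg Subtype.val (congrFun (congrFun hxy j) i)

/-- Column vectors with entries in `M`. -/
def Col (N : ℕ) (M : Type u) : Type u := Fin N → M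

section

variable (M : Type u) [AddCommGroup M] [Module A M]

instance : AddCommGroup (Col N M) := inferInstanceAs (AddCommGroup (Fin N → M))

instance : Module (Lam Φ N) (Col N M) where
  smul x v := fun j => ∑ i, x.1 j i • v i
  one_smul v := funext fun j => show ∑ _, _ = _ by simp [Matrix.one_apply]
  mul_smul x y v := funext fun j => show ∑ _, _ = ∑ _, _ • (∑ _, _) by
    simp_rw [Subalgebra.coe_mul, Matrix.mul_apply, Finset.smul_sum, Finset.sum_smul, mul_smul]
    rw [Finset.sum_comm]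
  smul_zero x := funext fun j => show ∑ i, x.1 j i • (0 : M) = 0 by simp
  smul_add x v w := funext fun j =>
    show ∑ i, x.1 j i • (v i + w i) = (∑ _, _) + (∑ _, _) by
      simp [smul_add, Finset.sum_add_distrib]
  add_smul x y v := funext fun j =>
    show ∑ i, (x.1 j i + y.1 j i) • v i = (∑ _, _) + (∑ _, _) by
      simp [add_smul, Finset.sum_add_distrib]
  zero_smul v := funext fun j => show ∑ i, (0 : A) • v i = 0 by simp

variable {Φ N M} in
lemma Col.smul_apply (x : Lam Φ N) (v : Col N M) (j : Fin N) :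
    (x • v) j = ∑ i, x.1 j i • v i := rfl

variable {N M} in
@[simp] lemma Col.add_apply (v w : Col N M) (j : Fin N) : (v + w) j = v j + w j := rfl

variable {N M} in
@[simp] lemma Col.zero_apply (j : Fin N) : (0 : Col N M) j = 0 := rfl

/-- A family of subgroups of an `A`-module compatible with the filtration of `A`. -/
structure Fam where
  F : ℤ → AddSubgroup M
  smul_mem : ∀ {r s : ℤ} {a : A} {x : M}, a ∈ Φ.G r → x ∈ F s → a • x ∈ F (r + s)

variable {Φ M}

/-- Shifted family. -/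
def Fam.shift (𝓕 : Fam Φ M) (m : ℤ) : Fam Φ M where
  F r := 𝓕.F (r - m)
  smul_mem := by
    intro r s a x ha hx
    have := 𝓕.smul_mem ha hx
    rwa [← add_sub_assoc] at this

@[simp] lemma Fam.shift_F (𝓕 : Fam Φ M) (m r : ℤ) : (𝓕.shift m).F r = 𝓕.F (r - m) := rfl

variable (Φ M) in
/-- The constant family. -/
def Fam.top : Fam Φ M where
  F _ := ⊤
  smul_mem _ _ := trivial

variable (Φ M) in
/-- The zero family. -/
def Fam.bot : Fam Φ M where
  F _ := ⊥
  smul_mem := by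
    intro r s a x _ hx
    rw [AddSubgroup.mem_bot] at hx ⊢
    rw [hx, smul_zero]

/-- Product of families. -/
def Fam.prod {M' : Type u} [AddCommGroup M'] [Module A M'] (𝓕 : Fam Φ M) (𝓕' : Fam Φ M') :
    Fam Φ (M × M') where
  F r := (𝓕.F r).prod (𝓕'.F r)
  smul_mem ha hx := ⟨𝓕.smul_mem ha hx.1, 𝓕'.smul_mem ha hx.2⟩

/-- The `Lam`-module of a family. -/
def Gam (𝓕 : Fam Φ M) : Submodule (Lam Φ N) (Col N M) where
  carrier := {v | ∀ j : Fin N, v j ∈ 𝓕.F (j : ℤ)}
  add_mem' hv hw j := AddSubgroup.add_mem _ (hv j) (hw j)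
  zero_mem' j := AddSubgroup.zero_mem _
  smul_mem' x v hv j := by
    rw [Col.smul_apply]
    refine AddSubgroup.sum_mem _ fun i _ => ?_
    have := 𝓕.smul_mem (x.2 j i) (hv i)
    rwa [sub_add_cancel] at this

end

section maps

variable {Φ}
variable {M₁ M₂ M₃ : Type u} [AddCommGroup M₁] [AddCommGroup M₂] [AddCommGroup M₃]
  [Module A M₁] [Module A M₂] [Module A M₃]

/-- The map of `Lam`-modules induced by a filtered linear map. -/
def Gmap (𝓕₁ : Fam Φ M₁) (𝓕₂ : Fam Φ M₂) (f : M₁ →ₗ[A] M₂)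
    (hf : ∀ (j : Fin N) (x : M₁), x ∈ 𝓕₁.F j → f x ∈ 𝓕₂.F j) :
    Gam N 𝓕₁ →ₗ[Lam Φ N] Gam N 𝓕₂ where
  toFun v := ⟨fun j => f (v.1 j), fun j => hf j _ (v.2 j)⟩
  map_add' v w := Subtype.ext <| funext fun j => map_add f _ _
  map_smul' x v := Subtype.ext <| funext fun j => by
    change f (∑ i, x.1 j i • v.1 i) = ∑ i, x.1 j i • f (v.1 i)
    simp [map_sum]

lemma Gmap_surj (𝓕₂ : Fam Φ M₂) (𝓕₃ : Fam Φ M₃) (g : M₂ →ₗ[A] M₃)
    (hg : ∀ (j : Fin N) (x : M₂), x ∈ 𝓕₂.F j → g x ∈ 𝓕₃.F j)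
    (surj : ∀ (j : Fin N) (z : M₃), z ∈ 𝓕₃.F j → ∃ y ∈ 𝓕₂.F j, g y = z) :
    Function.Surjective (Gmap N 𝓕₂ 𝓕₃ g hg) := by
  intro z
  choose y hy hyz using fun j => surj j (z.1 j) (z.2 j)
  exact ⟨⟨y, hy⟩, Subtype.ext (funext hyz)⟩

lemma Gmap_ses (𝓕₁ : Fam Φ M₁) (𝓕₂ : Fam Φ M₂) (𝓕₃ : Fam Φ M₃) (f : M₁ →ₗ[A] M₂)
    (g : M₂ →ₗ[A] M₃)
    (hf : ∀ (j : Fin N) (x : M₁), x ∈ 𝓕₁.F j → f x ∈ 𝓕₂.F j)
    (hg : ∀ (j : Fin N) (x : M₂), x ∈ 𝓕₂.F j → g x ∈ 𝓕₃.F j)
    (inj : ∀ (j : Fin N) (x : M₁), x ∈ 𝓕₁.F j → f x = 0 → x = 0)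
    (surj : ∀ (j : Fin N) (z : M₃), z ∈ 𝓕₃.F j → ∃ y ∈ 𝓕₂.F j, g y = z)
    (comp : ∀ (j : Fin N) (x : M₁), x ∈ 𝓕₁.F j → g (f x) = 0)
    (ex : ∀ (j : Fin N) (y : M₂), y ∈ 𝓕₂.F j → g y = 0 → ∃ x ∈ 𝓕₁.F j, f x = y) :
    SES (Λ := Lam Φ N) (M₁ := Gam N 𝓕₁) (M₂ := Gam N 𝓕₂) (M₃ := Gam N 𝓕₃)
      (Gmap N 𝓕₁ 𝓕₂ f hf) (Gmap N 𝓕₂ 𝓕₃ g hg) where
  inj := by
    rw [injective_iff_map_eq_zero]
    intro v hv
    exact Subtype.ext <| funext fun j => inj j _ (v.2 j) (congrFun (congrArg Subtype.val hv) j)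
  surj := Gmap_surj N 𝓕₂ 𝓕₃ g hg surj
  ex := by
    intro y
    constructor
    · intro hy
      choose x hx hxy using fun j => ex j (y.1 j) (y.2 j) (congrFun (congrArg Subtype.val hy) j)
      exact ⟨⟨x, hx⟩, Subtype.ext (funext hxy)⟩
    · rintro ⟨x, rfl⟩
      exact Subtype.ext <| funext fun j => comp j _ (x.2 j)

lemma Gprod_ses (𝓕₁ : Fam Φ M₁) (𝓕₂ : Fam Φ M₂) :
    SES (Λ := Lam Φ N) (M₁ := Gam N 𝓕₁) (M₂ := Gam N (𝓕₁.prod 𝓕₂)) (M₃ := Gam N 𝓕₂)
      (Gmap N 𝓕₁ (𝓕₁.prod 𝓕₂) (LinearMap.inl A M₁ M₂)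
        (fun _ _ hx => ⟨hx, AddSubgroup.zero_mem _⟩))
      (Gmap N (𝓕₁.prod 𝓕₂) 𝓕₂ (LinearMap.snd A M₁ M₂) (fun _ _ hx => hx.2)) := by
  refine Gmap_ses N _ _ _ _ _ _ _ ?_ ?_ ?_ ?_
  · intro j x _ h
    exact congrArg Prod.fst h
  · intro j z hz
    exact ⟨(0, z), ⟨AddSubgroup.zero_mem _, hz⟩, rfl⟩
  · intro j x _
    rfl
  · intro j y hy h
    exact ⟨y.1, hy.1, Prod.ext rfl h.symm⟩

instance : Subsingleton (Gam N (Fam.bot Φ M₁)) :=
  ⟨fun v w => Subtype.ext <| funext fun j => by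
    have h1 : v.1 j = 0 := v.2 j
    have h2 : w.1 j = 0 := w.2 j
    rw [h1, h2]⟩

lemma Gam_subsingleton [Subsingleton M₁] (𝓕 : Fam Φ M₁) : Subsingleton (Gam N 𝓕) :=
  ⟨fun _ _ => Subtype.ext <| funext fun _ => Subsingleton.elim _ _⟩

end maps

section free

variable (ι : Type u) [Fintype ι] [DecidableEq ι]

/-- The free family on `ι → A`. -/
def Fam.free : Fam Φ (ι → A) where
  F r := AddSubgroup.pi Set.univ fun _ => (Φ.G r).toAddSubgroup
  smul_mem ha hx i _ := Φ.mul_mem ha (hx i trivial)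

omit [Fintype ι] [DecidableEq ι] in
variable {Φ ι} in
lemma Fam.mem_free {r : ℤ} {a : ι → A} : a ∈ (Fam.free Φ ι).F r ↔ ∀ i, a i ∈ Φ.G r :=
  ⟨fun h i => h i trivial, fun h i _ => h i⟩

variable {N}

/-- The idempotent of a vertex. -/
def idem (m : Fin N) : Lam Φ N :=
  ⟨Matrix.single m m 1, fun j i => by
    by_cases h : m = j ∧ m = i
    · obtain ⟨rfl, rfl⟩ := h
      simpa using Φ.one_mem
    · rw [Matrix.single_apply_of_ne (h := h)]
      exact Submodule.zero_mem _⟩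

/-- Projection from the free module onto the `m`-th columns. -/
def colProj (m : Fin N) :
    (ι → Lam Φ N) →ₗ[Lam Φ N] Gam N ((Fam.free Φ ι).shift m) where
  toFun x := ⟨fun j i => (x i).1 j m, fun j i _ => (x i).2 j m⟩
  map_add' _ _ := rfl
  map_smul' c x := Subtype.ext <| funext fun j => funext fun i => by
    change (c.1 * (x i).1) j m = (∑ l, c.1 j l • fun i => (x i).1 l m) i
    simp [Matrix.mul_apply]

/-- Inclusion of the `m`-th columns in the free module. -/
def colIncl (m : Fin N) :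
    Gam N ((Fam.free Φ ι).shift m) →ₗ[Lam Φ N] (ι → Lam Φ N) where
  toFun v i := ⟨Matrix.of fun j l => if l = m then v.1 j i else 0, fun j l => by
    rw [Matrix.of_apply]
    split_ifs with h
    · subst h
      exact v.2 j i trivial
    · exact Submodule.zero_mem _⟩
  map_add' v w := by
    funext i
    ext j l
    change (if l = m then v.1 j i + w.1 j i else 0) =
      (if l = m then v.1 j i else 0) + (if l = m then w.1 j i else 0)
    split_ifs <;> simp
  map_smul' c v := by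
    funext i
    ext j l
    change (if l = m then (∑ l', c.1 j l' • v.1 l') i else 0) =
      (c.1 * Matrix.of fun j l => if l = m then v.1 j i else 0) j l
    rw [Matrix.mul_apply]
    split_ifs with h <;> simp [h]

omit [Fintype ι] [DecidableEq ι] in
lemma colProj_colIncl (m : Fin N) : colProj Φ ι m ∘ₗ colIncl Φ ι m = LinearMap.id := by
  refine LinearMap.ext fun v => Subtype.ext <| funext fun j => funext fun i => ?_
  change (if m = m then v.1 j i else 0) = v.1 j i
  simp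

omit [Fintype ι] [DecidableEq ι] in
lemma colProj_surj (m : Fin N) : Function.Surjective (colProj Φ ι m) := fun v =>
  ⟨colIncl Φ ι m v, LinearMap.congr_fun (colProj_colIncl Φ ι m) v⟩

omit [DecidableEq ι] in
lemma free_projective (m : Fin N) :
    Module.Projective (Lam Φ N) (Gam N ((Fam.free Φ ι).shift m)) :=
  Module.Projective.of_split (colIncl Φ ι m) (colProj Φ ι m) (colProj_colIncl Φ ι m)

omit [DecidableEq ι] in
lemma free_finite (m : Fin N) :
    Module.Finite (Lam Φ N) (Gam N ((Fam.free Φ ι).shift m)) :=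
  Module.Finite.of_surjective _ (colProj_surj Φ ι m)

lemma free_hom_zero (m : Fin N) {S : Type u} [AddCommGroup S] [Module (Lam Φ N) S]
    (hS : ∀ s : S, idem Φ m • s = 0) (φ : Gam N ((Fam.free Φ ι).shift m) →ₗ[Lam Φ N] S) :
    φ = 0 := by
  have h : φ ∘ₗ colProj Φ ι m = 0 := by
    refine LinearMap.pi_ext' fun i => LinearMap.ext_ring ?_
    have : colProj Φ ι m (Pi.single i 1) = idem Φ m • colProj Φ ι m (Pi.single i 1) := by
      rw [← map_smul]
      refine Subtype.ext <| funext fun j => funext fun i' => ?_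
      change ((Pi.single i 1 : ι → Lam Φ N) i').1 j m =
        ((idem Φ m • (Pi.single i 1 : ι → Lam Φ N)) i').1 j m
      by_cases h : i' = i
      · subst h
        simp only [Pi.single_eq_same, Pi.smul_apply, smul_eq_mul, mul_one]
        by_cases hj : j = m
        · subst hj; simp [idem]
        · simp [idem, Matrix.one_apply_ne hj, Matrix.single_apply_of_row_ne (Ne.symm hj)]
      · simp [Pi.single_eq_of_ne h]
    simp only [LinearMap.coe_comp, LinearMap.coe_single, Function.comp_apply,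
      LinearMap.zero_apply]
    rw [this, map_smul, hS]
  ext v
  obtain ⟨x, rfl⟩ := colProj_surj Φ ι m v
  exact LinearMap.congr_fun h x

end free

end Crest.Agent.R178
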