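import Mathlib

/-!
Homological bookkeeping for short exact sequences of modules: finiteness of projective dimension,
vanishing and non-vanishing of `Ext (-, S)`.
-/

set_option autoImplicit false

universe u

open CategoryTheory Abelian

namespace Crest.Agent.R178

variable {Λ : Type u} [Ring Λ]

/-- A short exact sequence of modules, given by linear maps. -/
structure SES {M₁ M₂ M₃ : Type u} [AddCommGroup M₁] [AddCommGroup M₂] [AddCommGroup M₃]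
    [Module Λ M₁] [Module Λ M₂] [Module Λ M₃] (f : M₁ →ₗ[Λ] M₂) (g : M₂ →ₗ[Λ] M₃) : Prop where
  inj : Function.Injective f
  surj : Function.Surjective g
  ex : Function.Exact f g

variable (Λ) in
/-- finite projective dimension -/
def FPD (M : Type u) [AddCommGroup M] [Module Λ M] : Prop :=
  ∃ n : ℕ, HasProjectiveDimensionLT (ModuleCat.of Λ M) n

/-- `Ext^i (M, S) = 0` -/
def EV (S : ModuleCat.{u} Λ) (M : Type u) [AddCommGroup M] [Module Λ M] (i : ℕ) : Prop :=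
  ∀ e : Ext (ModuleCat.of Λ M) S i, e = 0

section

variable {M₁ M₂ M₃ : Type u} [AddCommGroup M₁] [AddCommGroup M₂] [AddCommGroup M₃]
    [Module Λ M₁] [Module Λ M₂] [Module Λ M₃] {f : M₁ →ₗ[Λ] M₂} {g : M₂ →ₗ[Λ] M₃}

/-- the short complex of a short exact sequence -/
abbrev SES.sc (h : SES f g) : ShortComplex (ModuleCat.{u} Λ) :=
  ModuleCat.shortComplexOfCompEqZero f g h.ex.linearMap_comp_eq_zero

lemma SES.shortExact (h : SES f g) : h.sc.ShortExact :=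
  ModuleCat.shortComplex_shortExact _ h.ex h.inj h.surj

lemma SES.fpd₃ (h : SES f g) (h₁ : FPD Λ M₁) (h₂ : FPD Λ M₂) : FPD Λ M₃ := by
  obtain ⟨a, ha⟩ := h₁
  obtain ⟨b, hb⟩ := h₂
  refine ⟨a + b + 1, h.shortExact.hasProjectiveDimensionLT_X₃ (a + b) ?_ ?_⟩
  · exact hasProjectiveDimensionLT_of_ge (ModuleCat.of Λ M₁) a _ (by omega)
  · exact hasProjectiveDimensionLT_of_ge (ModuleCat.of Λ M₂) b _ (by omega)

lemma SES.fpd₂ (h : SES f g) (h₁ : FPD Λ M₁) (h₃ : FPD Λ M₃) : FPD Λ M₂ := by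
  obtain ⟨a, ha⟩ := h₁
  obtain ⟨b, hb⟩ := h₃
  refine ⟨a + b, h.shortExact.hasProjectiveDimensionLT_X₂ (a + b) ?_ ?_⟩
  · exact hasProjectiveDimensionLT_of_ge (ModuleCat.of Λ M₁) a _ (by omega)
  · exact hasProjectiveDimensionLT_of_ge (ModuleCat.of Λ M₃) b _ (by omega)

lemma SES.ev₂ (h : SES f g) {S : ModuleCat.{u} Λ} {i : ℕ} (h₁ : EV S M₁ i) (h₃ : EV S M₃ i) :
    EV S M₂ i := by
  intro x₂
  obtain ⟨x₃, rfl⟩ := Ext.contravariant_sequence_exact₂ h.shortExact S x₂ (h₁ _)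
  rw [h₃ x₃, Ext.comp_zero]

lemma SES.ev₃_succ (h : SES f g) {S : ModuleCat.{u} Λ} {i : ℕ} (h₁ : EV S M₁ i)
    (h₂ : EV S M₂ (i + 1)) : EV S M₃ (i + 1) := by
  intro x₃
  obtain ⟨x₁, rfl⟩ := Ext.contravariant_sequence_exact₃ h.shortExact S x₃ (h₂ _) (add_comm 1 i)
  rw [h₁ x₁, Ext.comp_zero]

lemma SES.ev₃_zero (h : SES f g) {S : ModuleCat.{u} Λ} (h₂ : EV S M₂ 0) : EV S M₃ 0 := by
  intro x₃
  obtain ⟨φ, rfl⟩ := (Ext.mk₀_bijective _ _).2 x₃
  have h0 := h₂ (Ext.mk₀ (ModuleCat.ofHom g ≫ φ))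
  rw [Ext.mk₀_eq_zero_iff] at h0 ⊢
  have : Epi (ModuleCat.ofHom g) := (ModuleCat.epi_iff_surjective _).mpr h.surj
  rw [← cancel_epi (ModuleCat.ofHom g), h0, Limits.comp_zero]

lemma SES.ev₃_all (h : SES f g) {S : ModuleCat.{u} Λ} (h₁ : ∀ i, EV S M₁ i)
    (h₂ : ∀ i, EV S M₂ i) : ∀ i, EV S M₃ i
  | 0 => h.ev₃_zero (h₂ 0)
  | i + 1 => h.ev₃_succ (h₁ i) (h₂ (i + 1))

lemma SES.ev₁ (h : SES f g) {S : ModuleCat.{u} Λ} {i : ℕ} (h₂ : EV S M₂ i)
    (h₃ : EV S M₃ (i + 1)) : EV S M₁ i := by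
  intro x₁
  obtain ⟨x₂, rfl⟩ := Ext.contravariant_sequence_exact₁ h.shortExact S x₁ (add_comm 1 i) (h₃ _)
  rw [h₂ x₂, Ext.comp_zero]

lemma SES.ev₁_of_factor (h : SES f g) {S : ModuleCat.{u} Λ} {i : ℕ}
    {Q : Type u} [AddCommGroup Q] [Module Λ Q] (f₁ : M₁ →ₗ[Λ] Q) (f₂ : Q →ₗ[Λ] M₂)
    (hf : f = f₂ ∘ₗ f₁) (hQ : EV S Q i) (h₃ : EV S M₃ (i + 1)) : EV S M₁ i := by
  intro x₁
  obtain ⟨x₂, rfl⟩ := Ext.contravariant_sequence_exact₁ h.shortExact S x₁ (add_comm 1 i) (h₃ _)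
  have : h.sc.f = ModuleCat.ofHom f₁ ≫ ModuleCat.ofHom f₂ := by
    subst hf; rfl
  rw [this, ← Ext.mk₀_comp_mk₀_assoc, hQ ((Ext.mk₀ (ModuleCat.ofHom f₂)).comp x₂ (zero_add i)),
    Ext.comp_zero]

end

section

variable {M : Type u} [AddCommGroup M] [Module Λ M]

lemma fpd_of_projective [Module.Projective Λ M] : FPD Λ M := by
  have : Projective (ModuleCat.of Λ M) := by
    rw [← IsProjective.iff_projective]; infer_instance
  exact ⟨1, inferInstance⟩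

lemma ev_succ_of_projective [Module.Projective Λ M] (S : ModuleCat.{u} Λ) (i : ℕ) :
    EV S M (i + 1) := by
  have : Projective (ModuleCat.of Λ M) := by
    rw [← IsProjective.iff_projective]; infer_instance
  intro e
  exact e.eq_zero_of_projective

lemma ev_zero_iff (S : ModuleCat.{u} Λ) : EV S M 0 ↔ ∀ φ : M →ₗ[Λ] S, φ = 0 := by
  constructor
  · intro h φ
    have h0 := h (Ext.mk₀ (ModuleCat.ofHom φ))
    rw [Ext.mk₀_eq_zero_iff] at h0
    simpa using congrArg ModuleCat.Hom.hom h0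
  · intro h e
    obtain ⟨φ, rfl⟩ := (Ext.mk₀_bijective _ _).2 e
    rw [Ext.mk₀_eq_zero_iff]
    ext1
    simpa using h φ.hom

lemma fpd_of_subsingleton [Subsingleton M] : FPD Λ M := fpd_of_projective

lemma ev_of_subsingleton [Subsingleton M] (S : ModuleCat.{u} Λ) : ∀ i, EV S M i
  | 0 => (ev_zero_iff S).2 fun _ => Subsingleton.elim _ _
  | i + 1 => ev_succ_of_projective S i

lemma not_pdLT_of_not_ev {S : ModuleCat.{u} Λ} {i k : ℕ} (h : ¬ EV S M i) (hk : k ≤ i) :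
    ¬ HasProjectiveDimensionLT (ModuleCat.of Λ M) k := fun _ =>
  h fun e => e.eq_zero_of_hasProjectiveDimensionLT k hk

end

end Crest.Agent.R178
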