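import Crest.Agent.R178.FiltP

/-!
The induced modules `Q W` have a length three resolution over the window algebra.
-/

set_option autoImplicit false
set_option linter.unusedSimpArgs false
set_option linter.unusedSectionVars false

namespace Crest.Agent.R178

open Gen

section tr

variable (ι : Type)

/-- transport of a linear map on `PP` to `ι → AA` -/
noncomputable def tr (φ : PP →ₗ[ℂ] PP) : (ι → AA) →+ (ι → AA) where
  toFun a j := σ (mapQ φ (ev (a j)))
  map_zero' := by funext j; simp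
  map_add' a b := by funext j; simp

variable {ι}

lemma tr_apply (φ : PP →ₗ[ℂ] PP) (a : ι → AA) (j : ι) : tr ι φ a j = σ (mapQ φ (ev (a j))) := rfl

lemma tr_tr (φ ψ : PP →ₗ[ℂ] PP) (a : ι → AA) : tr ι φ (tr ι ψ a) = tr ι (φ ∘ₗ ψ) a := by
  funext j
  rw [tr_apply, tr_apply, tr_apply, ev_σ, mapQ_mapQ]

lemma tr_id (a : ι → AA) : tr ι LinearMap.id a = a := by
  funext j
  rw [tr_apply, mapQ_id, σ_ev]

lemma tr_sub (φ ψ : PP →ₗ[ℂ] PP) (a : ι → AA) : tr ι (φ - ψ) a = tr ι φ a - tr ι ψ a := by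
  funext j
  rw [Pi.sub_apply, tr_apply, tr_apply, tr_apply, mapQ_sub, map_sub]

lemma tr_mem {φ : PP →ₗ[ℂ] PP} {d : ℤ} (hφ : ∀ r p, p ∈ FP r → φ p ∈ FP (r + d)) (r : ℤ)
    (a : ι → AA) (ha : a ∈ (Fam.free ΦA ι).F r) : tr ι φ a ∈ (Fam.free ΦA ι).F (r + d) :=
  Fam.mem_free.2 fun j => σ_mem (mapQ_mem hφ (ev_mem (Fam.mem_free.1 ha j)))

variable (ι) in
/-- The model operators on `ι → AA`. -/
noncomputable def regA : Reg (Fam.free ΦA ι).F where
  s₁ := tr ι (mulX 2)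
  s₂ := tr ι (mulX 1)
  s₃ := tr ι (mulX 0)
  d₁ := tr ι (divX 2)
  d₂ := tr ι (divX 1)
  d₃ := tr ι (divX 0)
  hs₁ := tr_mem (mulX_mem 2)
  hs₂ := tr_mem (mulX_mem 1)
  hs₃ := tr_mem (mulX_mem 0)
  hd₁ := tr_mem (divX_mem 2)
  hd₂ := tr_mem (divX_mem 1)
  hd₃ := tr_mem (divX_mem 0)
  ds₁ a := by rw [tr_tr, divX_mulX, tr_id]
  ds₂ a := by rw [tr_tr, divX_mulX, tr_id]
  ds₃ a := by rw [tr_tr, divX_mulX, tr_id]
  d₁s₂ a := by rw [tr_tr, tr_tr, divX_mulX_ne (by decide)]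
  d₁s₃ a := by rw [tr_tr, tr_tr, divX_mulX_ne (by decide)]
  d₂s₃ a := by rw [tr_tr, tr_tr, divX_mulX_ne (by decide)]
  s₁s₂ a := by rw [tr_tr, tr_tr, mulX_comm]
  s₁s₃ a := by rw [tr_tr, tr_tr, mulX_comm]
  s₂s₃ a := by rw [tr_tr, tr_tr, mulX_comm]

lemma tr_modX (i : Fin 3) (a : ι → AA) :
    a - tr ι (mulX i) (tr ι (divX i) a) = tr ι (modX i) a := by
  rw [modX, tr_sub, tr_id, tr_tr]

lemma regA_p (a : ι → AA) : (regA ι).p₃ ((regA ι).p₂ ((regA ι).p₁ a)) =
    tr ι (cst ∘ₗ MvPolynomial.lcoeff ℂ 0) a := by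
  have h₁ : ∀ a, (regA ι).p₁ a = tr ι (modX 2) a := tr_modX 2
  have h₂ : ∀ a, (regA ι).p₂ a = tr ι (modX 1) a := tr_modX 1
  have h₃ : ∀ a, (regA ι).p₃ a = tr ι (modX 0) a := tr_modX 0
  rw [h₁, h₂, h₃, tr_tr, tr_tr, ← modX_all, LinearMap.comp_assoc]

variable (ι) in
/-- The reduced elements. -/
def Red (r : ℤ) : AddSubgroup (ι → AA) where
  carrier := {a | ∃ z : ι → Q ℂ, (∀ i, z i ∈ QF (TF ℂ) r) ∧ ∀ i, a i = σ (mapQ cst (z i))}
  add_mem' := by
    rintro a b ⟨z, hz, ha⟩ ⟨z', hz', hb⟩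
    exact ⟨z + z', fun i => Submodule.add_mem _ (hz i) (hz' i), fun i => by simp [ha, hb]⟩
  zero_mem' := ⟨0, fun _ => Submodule.zero_mem _, fun i => by simp⟩
  neg_mem' := by
    rintro a ⟨z, hz, ha⟩
    exact ⟨-z, fun i => Submodule.neg_mem _ (hz i), fun i => by simp [ha]⟩

lemma Red_mono (r : ℤ) : Red ι r ≤ Red ι (r + 1) := by
  rintro a ⟨z, hz, ha⟩
  exact ⟨z, fun i => QF_mono TF_mono (by omega) (hz i), ha⟩

lemma regA_p_mem (r : ℤ) (a : ι → AA) (ha : a ∈ (Fam.free ΦA ι).F r) :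
    (regA ι).p₃ ((regA ι).p₂ ((regA ι).p₁ a)) ∈ Red ι r := by
  rw [regA_p]
  refine ⟨fun i => mapQ (MvPolynomial.lcoeff ℂ 0) (ev (a i)), fun i => ?_, fun i => ?_⟩
  · simpa using mapQ_mem lcoeff_mem (ev_mem (Fam.mem_free.1 ha i))
  · rw [tr_apply, mapQ_mapQ]

end tr

section rho

variable {ι : Type} [Fintype ι] [DecidableEq ι]

/-- right multiplication -/
noncomputable def Rm (x : AA) : (ι → AA) →ₗ[AA] (ι → AA) where
  toFun a i := a i * x
  map_add' a b := by funext i; simp [add_mul]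
  map_smul' c a := by funext i; simp [mul_assoc]

/-- action of a scalar matrix -/
noncomputable def Lm (X : Matrix ι ι ℂ) : (ι → AA) →ₗ[AA] (ι → AA) where
  toFun a i := ∑ j, X i j • a j
  map_add' a b := by funext i; simp [Finset.sum_add_distrib]
  map_smul' c a := by funext i; simp [Finset.mul_sum]

lemma Rm_apply (x : AA) (a : ι → AA) (i : ι) : Rm x a i = a i * x := rfl
lemma Lm_apply (X : Matrix ι ι ℂ) (a : ι → AA) (i : ι) : Lm X a i = ∑ j, X i j • a j := rfl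

lemma Lm_Lm (X Y : Matrix ι ι ℂ) (a : ι → AA) : Lm X (Lm Y a) = Lm (X * Y) a := by
  funext i
  simp only [Lm_apply, Matrix.mul_apply, Finset.smul_sum, Finset.sum_smul, mul_smul]
  rw [Finset.sum_comm]

lemma Lm_add (X Y : Matrix ι ι ℂ) (a : ι → AA) : Lm (X + Y) a = Lm X a + Lm Y a := by
  funext i
  simp [Lm_apply, add_smul, Finset.sum_add_distrib]

lemma Lm_sub (X Y : Matrix ι ι ℂ) (a : ι → AA) : Lm (X - Y) a = Lm X a - Lm Y a := by
  funext i
  simp [Lm_apply, sub_smul, Finset.sum_sub_distrib]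

lemma Rm_Lm (x : AA) (X : Matrix ι ι ℂ) (a : ι → AA) : Rm x (Lm X a) = Lm X (Rm x a) := by
  funext i
  simp [Lm_apply, Rm_apply, Finset.sum_mul]

lemma Rm_Rm (x y : AA) (a : ι → AA) : Rm x (Rm y a) = Rm (y * x) a := by
  funext i
  simp [Rm_apply, mul_assoc]

lemma Rm_add (x y : AA) (a : ι → AA) : Rm (x + y) a = Rm x a + Rm y a := by
  funext i
  simp [Rm_apply, mul_add]

lemma Rm_sub (x y : AA) (a : ι → AA) : Rm (x - y) a = Rm x a - Rm y a := by
  funext i
  simp [Rm_apply, mul_sub]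

/-- `a ⊗ w ↦ a x ⊗ w - a ⊗ X w` -/
noncomputable def ρ (x : AA) (X : Matrix ι ι ℂ) : (ι → AA) →ₗ[AA] (ι → AA) := Rm x - Lm X

lemma ρ_apply (x : AA) (X : Matrix ι ι ℂ) (a : ι → AA) : ρ x X a = Rm x a - Lm X a := rfl

lemma Lm_mem (X : Matrix ι ι ℂ) {r : ℤ} {a : ι → AA} (ha : a ∈ (Fam.free ΦA ι).F r) :
    Lm X a ∈ (Fam.free ΦA ι).F r :=
  Fam.mem_free.2 fun _ => Submodule.sum_mem _ fun j _ =>
    Submodule.smul_mem _ _ (Fam.mem_free.1 ha j)

lemma ρ_approx {x : AA} {i : Fin 3}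
    (h : ∀ {r : ℤ} {a : AA}, a ∈ GG r → a * x - σ (mapQ (mulX i) (ev a)) ∈ GG r)
    (X : Matrix ι ι ℂ) (r : ℤ) (a : ι → AA) (ha : a ∈ (Fam.free ΦA ι).F r) :
    ρ x X a - tr ι (mulX i) a ∈ (Fam.free ΦA ι).F r := by
  have h1 : Rm x a - tr ι (mulX i) a ∈ (Fam.free ΦA ι).F r :=
    Fam.mem_free.2 fun j => h (Fam.mem_free.1 ha j)
  have : ρ x X a - tr ι (mulX i) a = (Rm x a - tr ι (mulX i) a) - Lm X a := by
    rw [ρ_apply]; abel
  rw [this]
  exact AddSubgroup.sub_mem _ h1 (Lm_mem X ha)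

lemma free_mono (r : ℤ) : (Fam.free ΦA ι).F r ≤ (Fam.free ΦA ι).F (r + 1) := fun _ ha =>
  Fam.mem_free.2 fun j => GG_mono (by omega) (Fam.mem_free.1 ha j)

lemma regSeq (E H F : Matrix ι ι ℂ) (he : H * E = E * H + E + E) (hf : H * F = F * H - F - F)
    (ef : E * F = F * E + H) :
    RegSeq (regA ι) (ρ (γ f) F) (ρ (γ h) H) (ρ (γ h) H - LinearMap.id - LinearMap.id)
      (ρ (γ e) E) := by
  have R := rels_γ
  have ah := ρ_approx approx_h H
  have ae := ρ_approx approx_e E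
  have dh := approx_deg (𝓕 := Fam.free ΦA ι) free_mono (regA ι).hs₂ ah
  have de := approx_deg (𝓕 := Fam.free ΦA ι) free_mono (regA ι).hs₃ ae
  have c1 : ∀ a, ρ (γ h) H (ρ (γ f) F a) = ρ (γ f) F (ρ (γ h) H a + a + a) := by
    intro a
    simp only [ρ_apply, map_add, map_sub, Rm_Rm, Lm_Lm, Rm_Lm, R.hf, hf, Rm_sub, Lm_sub]
    abel
  refine
    { mono := free_mono
      bot := ⟨-2, fun r hr => ?_⟩
      a₁ := ρ_approx approx_f F
      a₂ := ah
      a₂' := fun r a ha => ?_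
      a₃ := ae
      c₂₁ := fun r a ha => ⟨_, ?_, c1 a⟩
      c₂₁' := fun r a ha => ⟨ρ (γ h) H a, dh r a ha, ?_⟩
      c₃₁ := fun r a ha => ⟨ρ (γ e) E a, de r a ha, -a,
        AddSubgroup.neg_mem _ (free_mono r ha), ?_⟩
      c₃₂ := fun r a ha => ⟨0, AddSubgroup.zero_mem _, ρ (γ e) E a, de r a ha, ?_⟩ }
  · rw [eq_bot_iff]
    intro a ha
    rw [AddSubgroup.mem_bot]
    funext j
    exact GG_bot hr (Fam.mem_free.1 ha j)
  · have : (ρ (γ h) H - LinearMap.id - LinearMap.id : (ι → AA) →ₗ[AA] (ι → AA)) a -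
        (regA ι).s₂ a = (ρ (γ h) H a - tr ι (mulX 1) a) - a - a := by
      simp only [LinearMap.sub_apply, LinearMap.id_apply, regA]
      abel
    rw [this]
    exact AddSubgroup.sub_mem _ (AddSubgroup.sub_mem _ (ah r a ha) ha) ha
  · exact AddSubgroup.add_mem _ (AddSubgroup.add_mem _ (dh r a ha) (free_mono r ha))
      (free_mono r ha)
  · simp only [LinearMap.sub_apply, LinearMap.id_apply, c1, map_add]
    abel
  · simp only [ρ_apply, map_add, map_sub, map_neg, Rm_Rm, Lm_Lm, Rm_Lm, R.ef, ef, Rm_add, Lm_add]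
    abel
  · simp only [LinearMap.sub_apply, LinearMap.id_apply, ρ_apply, map_add, map_sub, map_zero,
      Rm_Rm, Lm_Lm, Rm_Lm, R.he, he, Rm_add, Lm_add]
    abel

end rho

section modules

variable {W : Type} [AddCommGroup W] [Module ℂ W]

/-- `Q W` as an `AA`-module -/
def QM (_T : Sl2 W) : Type := Q W

/-- `W` as an `AA`-module -/
def WM (_T : Sl2 W) (_c : ℂ) : Type := W

variable (T : Sl2 W) (c : ℂ)

noncomputable instance : AddCommGroup (QM T) := inferInstanceAs (AddCommGroup (Q W))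
instance : AddCommGroup (WM T c) := inferInstanceAs (AddCommGroup W)

noncomputable instance : Module AA (QM T) where
  smul a x := T.Qrep a x
  one_smul x := show T.Qrep 1 x = x by simp
  mul_smul a b x := show T.Qrep (a * b) x = T.Qrep a (T.Qrep b x) by simp
  smul_zero a := map_zero (T.Qrep a)
  smul_add a := map_add (T.Qrep a)
  add_smul a b x := show T.Qrep (a + b) x = T.Qrep a x + T.Qrep b x by simp
  zero_smul x := show T.Qrep 0 x = 0 by simp

noncomputable instance : Module AA (WM T c) where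
  smul a x := T.Wrep c a x
  one_smul x := show T.Wrep c 1 x = x by simp
  mul_smul a b x := show T.Wrep c (a * b) x = T.Wrep c a (T.Wrep c b x) by simp
  smul_zero a := map_zero (T.Wrep c a)
  smul_add a := map_add (T.Wrep c a)
  add_smul a b x := show T.Wrep c (a + b) x = T.Wrep c a x + T.Wrep c b x by simp
  zero_smul x := show T.Wrep c 0 x = 0 by simp

lemma QM_smul (a : AA) (x : QM T) : a • x = T.Qrep a x := rfl
lemma WM_smul (a : AA) (x : WM T c) : a • x = T.Wrep c a x := rfl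

/-- the standard family on `Q W` -/
noncomputable def QFam : Fam ΦA (QM T) where
  F r := (QF (TF W) r).toAddSubgroup
  smul_mem ha hx := T.Qrep_mem TF_mono (TF_map T.e 1 zero_le_one) (TF_map T.h 1 zero_le_one)
    (TF_map T.f 1 zero_le_one) ha hx

lemma intertwine {M M' : Type} [AddCommGroup M] [Module ℂ M] [AddCommGroup M'] [Module ℂ M']
    (r : AA →ₐ[ℂ] Module.End ℂ M) (r' : AA →ₐ[ℂ] Module.End ℂ M') (φ : M →ₗ[ℂ] M')
    (h : ∀ g x, φ (r (γ g) x) = r' (γ g) (φ x)) (a : AA) : ∀ x, φ (r a x) = r' a (φ x) := by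
  induction a using AA_induction with
  | hc c => intro x; simp [Algebra.algebraMap_eq_smul_one]
  | hg g => exact h g
  | hmul a b ha hb => intro x; simp [ha, hb]
  | hadd a b ha hb => intro x; simp [ha, hb]

variable {ι : Type} [Fintype ι] [DecidableEq ι] (b : Module.Basis ι ℂ W)

/-- the projection `AA ⊗ W → Q W` -/
noncomputable def piC : (ι → AA) →ₗ[ℂ] Q W where
  toFun a := ∑ i, T.Qrep (a i) (emb W (b i))
  map_add' a a' := by simp [Finset.sum_add_distrib]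
  map_smul' c a := by simp [Finset.smul_sum]

lemma piC_apply (a : ι → AA) : piC T b a = ∑ i, T.Qrep (a i) (emb W (b i)) := rfl

lemma piC_smul (c : AA) (a : ι → AA) : piC T b (c • a) = T.Qrep c (piC T b a) := by
  simp [piC_apply, map_sum]

/-- the projection `AA ⊗ W → Q W` as an `AA`-linear map -/
noncomputable def piQ : (ι → AA) →ₗ[AA] QM T where
  toFun a := piC T b a
  map_add' a a' := map_add (piC T b) a a'
  map_smul' c a := piC_smul T b c a

lemma piC_ρ (x : AA) (X : Module.End ℂ W) (hx : ∀ w, T.Qrep x (emb W w) = emb W (X w))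
    (a : ι → AA) : piC T b (ρ x (LinearMap.toMatrix b b X) a) = 0 := by
  rw [ρ_apply, map_sub, sub_eq_zero, piC_apply, piC_apply]
  simp only [Rm_apply, Lm_apply, map_mul, Module.End.mul_apply, hx, map_sum, map_smul,
    LinearMap.sum_apply, LinearMap.smul_apply]
  rw [Finset.sum_comm]
  refine Finset.sum_congr rfl fun j _ => ?_
  conv_lhs => rw [← b.sum_repr (X (b j)), map_sum, map_sum]
  simp [LinearMap.toMatrix_apply]

lemma Qrep_σ_cst (z : Q ℂ) (w : W) :
    T.Qrep (σ (mapQ cst z)) (emb W w) = mapQ (LinearMap.toSpanSingleton ℂ W w) z := by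
  let φ : AA →ₗ[ℂ] Q W :=
    { toFun := fun a => T.Qrep a (emb W w)
      map_add' := fun a b => by simp
      map_smul' := fun c a => by simp }
  have hφ : ∀ a, φ a = T.Qrep a (emb W w) := fun _ => rfl
  have : φ ∘ₗ σ ∘ₗ mapQ cst = mapQ (LinearMap.toSpanSingleton ℂ W w) := by
    refine Q_hom_ext (fun k c => ?_) (fun y => ?_)
    · rw [LinearMap.comp_apply, LinearMap.comp_apply, mapQ_single, mapQ_single, σ_single, σ₀_cst,
        σV_apply]
      simp only [Prod.fst_zero, Prod.snd_zero, map_zero, mul_zero, add_zero, mul_smul_comm,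
        mul_one, map_smul]
      rw [hφ, Sl2.Qrep_t_pow]
      simp [Prod.mk_zero_zero]
    · rw [LinearMap.comp_apply, LinearMap.comp_apply, mapQ_apply, mapQ_apply, map_zero, map_zero,
        σ_zero, σV_apply, σ₀_cst, σ₀_cst]
      simp only [mul_smul_comm, mul_one, map_add, map_smul]
      rw [hφ, hφ, Sl2.Qrep_γ, Sl2.Qrep_γ, Sl2.Qop_v₁_emb, Sl2.Qop_v₂_emb]
      simp
  exact LinearMap.congr_fun this z

lemma piC_mem (r : ℤ) (a : ι → AA) (ha : a ∈ (Fam.free ΦA ι).F r) :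
    piC T b a ∈ QF (TF W) r := by
  refine Submodule.sum_mem _ fun i _ => ?_
  have h1 : emb W (b i) ∈ QF (TF W) 0 := by
    refine ⟨fun k => mem_TF.2 fun hk => ?_, Submodule.zero_mem _, Submodule.zero_mem _⟩
    rw [emb_apply]
    exact Finsupp.single_eq_of_ne (by omega)
  have := (QFam T).smul_mem (Fam.mem_free.1 ha i) h1
  rwa [add_zero] at this

lemma piC_surj (r : ℤ) (x : Q W) (hx : x ∈ QF (TF W) r) :
    ∃ a ∈ (Fam.free ΦA ι).F r, piC T b a = x := by
  refine ⟨fun i => σ (mapQ cst (mapQ (b.coord i) x)), Fam.mem_free.2 fun i => σ_mem ?_, ?_⟩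
  · simpa using mapQ_mem cst_mem (mapQ_mem (TF_map (b.coord i) 0 le_rfl) hx)
  · rw [piC_apply]
    simp only [Qrep_σ_cst]
    simp only [mapQ_mapQ]
    rw [← mapQ_sum]
    have : ∑ i, LinearMap.toSpanSingleton ℂ W (b i) ∘ₗ b.coord i = LinearMap.id := by
      ext w
      simp [LinearMap.sum_apply]
    rw [this, mapQ_id]

lemma piC_red {r : ℤ} {a : ι → AA} (ha : a ∈ Red ι r) (h : piC T b a = 0) : a = 0 := by
  obtain ⟨z, -, hz⟩ := ha
  funext j
  have h1 : mapQ (b.coord j) (piC T b a) = z j := by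
    rw [piC_apply]
    simp only [hz, Qrep_σ_cst, map_sum, mapQ_mapQ]
    rw [Finset.sum_eq_single j]
    · have : b.coord j ∘ₗ LinearMap.toSpanSingleton ℂ W (b j) = LinearMap.id := by
        ext; simp
      rw [this, mapQ_id]
    · intro i _ hij
      have : b.coord j ∘ₗ LinearMap.toSpanSingleton ℂ W (b i) = 0 := by
        ext; simp [Finsupp.single_eq_of_ne hij.symm]
      rw [this, mapQ_zero]
    · simp
  rw [hz, ← h1, h]
  simp

lemma regSeq_T : RegSeq (regA ι) (ρ (γ f) (LinearMap.toMatrix b b T.f))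
    (ρ (γ h) (LinearMap.toMatrix b b T.h))
    (ρ (γ h) (LinearMap.toMatrix b b T.h) - LinearMap.id - LinearMap.id)
    (ρ (γ e) (LinearMap.toMatrix b b T.e)) := by
  refine regSeq _ _ _ ?_ ?_ ?_
  · simp only [← LinearMap.toMatrix_mul, ← map_add]
    exact congrArg _ (LinearMap.ext T.he)
  · simp only [← LinearMap.toMatrix_mul, ← map_sub]
    exact congrArg _ (LinearMap.ext T.hf)
  · simp only [← LinearMap.toMatrix_mul, ← map_add]
    exact congrArg _ (LinearMap.ext T.ef)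

/-- the kernel family of `piQ` -/
noncomputable def KT : Fam ΦA (ι → AA) :=
  K₃ (Fam.free ΦA ι) (ρ (γ f) (LinearMap.toMatrix b b T.f))
    (ρ (γ h) (LinearMap.toMatrix b b T.h)) (ρ (γ e) (LinearMap.toMatrix b b T.e))

lemma piC_KT {r : ℤ} {x : ι → AA} (hx : x ∈ (KT T b).F r) : piC T b x = 0 := by
  obtain ⟨a₁, -, a₂, -, a₃, -, rfl⟩ := mem_K₃.1 hx
  rw [map_add, map_add, piC_ρ, piC_ρ, piC_ρ, add_zero, add_zero]
  · intro w; simpa using T.Qrep_e_pow 1 w
  · intro w; simpa using T.Qrep_h_pow 1 w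
  · intro w; simpa using T.Qrep_f_pow 1 w

lemma ses_piQ (N : ℕ) (m : ℤ) :
    SES (Λ := Lam ΦA N) (M₁ := Gam N ((KT T b).shift m)) (M₂ := Gam N ((Fam.free ΦA ι).shift m))
      (M₃ := Gam N ((QFam T).shift m))
      (Gmap N ((KT T b).shift m) ((Fam.free ΦA ι).shift m) LinearMap.id
        fun _ x hx => (regSeq_T T b).K₃le _ x hx)
      (Gmap N ((Fam.free ΦA ι).shift m) ((QFam T).shift m) (piQ T b)
        fun _ x hx => piC_mem T b _ x hx) := by
  refine Gmap_ses N _ _ _ _ _ _ _ (fun _ _ _ h => h) (fun j z hz => piC_surj T b _ z hz)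
    (fun j x hx => piC_KT T b hx) (fun j y hy h => ⟨y, ?_, rfl⟩)
  obtain ⟨x, hx, z, hz, rfl⟩ := (regSeq_T T b).reduce (Red ι) Red_mono regA_p_mem _ y hy
  have h' : piC T b (x + z) = 0 := h
  rw [map_add, piC_KT T b hx, zero_add] at h'
  rw [piC_red T b hz h', add_zero]
  exact hx

end modules

end Crest.Agent.R178
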