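import Crest.Agent.R178.Step

/-!
The simple `sl₂`-modules as spaces of binary forms, and the main theorem.
-/

set_option autoImplicit false
set_option linter.unusedSimpArgs false

namespace Crest.Agent.R178

open MvPolynomial

/-- binary forms of degree `n` -/
abbrev Wn (n : ℕ) : Type := homogeneousSubmodule (Fin 2) ℂ n

instance (n : ℕ) : FiniteDimensional ℂ (Wn n) :=
  Submodule.finiteDimensional_of_le (S₂ := restrictTotalDegree (Fin 2) ℂ n) fun _ hp =>
    (mem_restrictTotalDegree _ _ _).2 (IsHomogeneous.totalDegree_le hp)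

lemma pd_comm (i j : Fin 2) (p : MvPolynomial (Fin 2) ℂ) :
    pderiv i (pderiv j p) = pderiv j (pderiv i p) := by
  ext m
  simp only [coeff_pderiv, Finsupp.add_apply]
  rw [add_right_comm m]
  by_cases h : i = j
  · subst h; rfl
  · simp [Finsupp.single_eq_of_ne h, Finsupp.single_eq_of_ne (Ne.symm h)]
    ring

lemma pd_zero {p : MvPolynomial (Fin 2) ℂ} (hp : p.IsHomogeneous 0) (j : Fin 2) :
    pderiv j p = 0 := by
  rw [← totalDegree_zero_iff_isHomogeneous, totalDegree_eq_zero_iff_eq_C] at hp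
  rw [hp, pderiv_C]

lemma hom_X_pd {n : ℕ} {p : MvPolynomial (Fin 2) ℂ} (hp : p.IsHomogeneous n) (i j : Fin 2) :
    (X i * pderiv j p).IsHomogeneous n := by
  cases n with
  | zero => rw [pd_zero hp, mul_zero]; exact isHomogeneous_zero _ _ _
  | succ n =>
    have := (isHomogeneous_X ℂ i).mul (hp.pderiv (i := j))
    rwa [add_tsub_cancel_right, add_comm] at this

/-- the operator `xᵢ ∂ⱼ` on forms of degree `n` -/
noncomputable def xd (n : ℕ) (i j : Fin 2) : Module.End ℂ (Wn n) where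
  toFun p := ⟨X i * pderiv j p.1, hom_X_pd p.2 i j⟩
  map_add' p q := Subtype.ext (by simp [mul_add])
  map_smul' c p := Subtype.ext (by simp)

@[simp] lemma xd_coe (n : ℕ) (i j : Fin 2) (p : Wn n) : (xd n i j p).1 = X i * pderiv j p.1 := rfl

/-- multiplication by a variable -/
noncomputable def xm (n : ℕ) (i : Fin 2) : Wn n →ₗ[ℂ] Wn (n + 1) where
  toFun p := ⟨X i * p.1, by
    have := (isHomogeneous_X ℂ i).mul p.2
    rwa [add_comm] at this⟩
  map_add' p q := Subtype.ext (by simp [mul_add])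
  map_smul' c p := Subtype.ext (by simp)

@[simp] lemma xm_coe (n : ℕ) (i : Fin 2) (p : Wn n) : (xm n i p).1 = X i * p.1 := rfl

/-- partial derivative -/
noncomputable def pd (n : ℕ) (i : Fin 2) : Wn (n + 1) →ₗ[ℂ] Wn n where
  toFun p := ⟨pderiv i p.1, IsHomogeneous.pderiv (n := n + 1) p.2⟩
  map_add' p q := Subtype.ext (by simp)
  map_smul' c p := Subtype.ext (by simp)

@[simp] lemma pd_coe (n : ℕ) (i : Fin 2) (p : Wn (n + 1)) : (pd n i p).1 = pderiv i p.1 := rfl

lemma pd01 : pderiv (0 : Fin 2) (X 1 : MvPolynomial (Fin 2) ℂ) = 0 := pderiv_X_of_ne (by decide)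
lemma pd10 : pderiv (1 : Fin 2) (X 0 : MvPolynomial (Fin 2) ℂ) = 0 := pderiv_X_of_ne (by decide)

/-- the simple `sl₂`-module of dimension `n + 1` -/
noncomputable def Tn (n : ℕ) : Sl2 (Wn n) where
  e := xd n 0 1
  h := xd n 0 0 - xd n 1 1
  f := xd n 1 0
  he w := Subtype.ext (by
    simp only [LinearMap.sub_apply, Submodule.coe_add, Submodule.coe_sub, xd_coe, map_sub,
      pderiv_mul, pderiv_X_self, pd01, pd10, pd_comm 0 1]
    ring)
  hf w := Subtype.ext (by
    simp only [LinearMap.sub_apply, Submodule.coe_add, Submodule.coe_sub, xd_coe, map_sub,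
      pderiv_mul, pderiv_X_self, pd01, pd10, pd_comm 0 1]
    ring)
  ef w := Subtype.ext (by
    simp only [LinearMap.sub_apply, Submodule.coe_add, Submodule.coe_sub, xd_coe, map_sub,
      pderiv_mul, pderiv_X_self, pd01, pd10, pd_comm 0 1]
    ring)

lemma euler {n : ℕ} (p : Wn n) :
    X 0 * pderiv 0 p.1 + X 1 * pderiv 1 p.1 = (n : MvPolynomial (Fin 2) ℂ) * p.1 := by
  have := IsHomogeneous.sum_X_mul_pderiv p.2
  rwa [Fin.sum_univ_two, nsmul_eq_mul] at this

/-- the central character -/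
noncomputable def cc (n : ℕ) : ℂ := -((n : ℂ) + 2)

lemma cc_succ (n : ℕ) : cc (n + 1) + 1 = cc n := by simp [cc]; ring

lemma smul_eq (c : ℂ) (p : MvPolynomial (Fin 2) ℂ) : c • p = C c * p := smul_eq_C_mul p c

/-- `Wn n` is the translate of `Wn (n + 1)` -/
noncomputable def transSucc (n : ℕ) : Trans (Tn (n + 1)) (cc (n + 1)) (Tn n) where
  A := (xm n 1).prod (-xm n 0)
  A' := (pd n 1 + pd n 1).coprod (-(pd n 0 + pd n 0))
  κ := (n : ℂ) + 2 + ((n : ℂ) + 2)
  hκ := by
    have : ((n : ℂ) + 2 + ((n : ℂ) + 2)) = ((n + 2 + (n + 2) : ℕ) : ℂ) := by push_cast; ring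
    rw [this]
    exact Nat.cast_ne_zero.2 (by omega)
  A'A w := Subtype.ext (by
    have := euler w
    simp [pderiv_mul, smul_eq, map_ofNat]
    linear_combination 2 * this)
  DA y := by
    have h1 := euler y.1
    have h2 := euler y.2
    refine Prod.ext (Subtype.ext ?_) (Subtype.ext ?_)
    · simp [DD_apply, Sl2.Ω_apply, Tn, cc, smul_eq, map_ofNat]
      push_cast at h1
      linear_combination h1
    · simp [DD_apply, Sl2.Ω_apply, Tn, cc, smul_eq, map_ofNat]
      push_cast at h2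
      linear_combination h2
  Ae w := by
    refine Prod.ext (Subtype.ext ?_) (Subtype.ext ?_) <;>
      simp [Sl2.ψe_apply, Tn, pderiv_mul, pd01, pd10] <;> ring
  Ah w := by
    refine Prod.ext (Subtype.ext ?_) (Subtype.ext ?_) <;>
      simp [Sl2.ψh_apply, Tn, pderiv_mul, pd01, pd10] <;> ring
  Af w := by
    refine Prod.ext (Subtype.ext ?_) (Subtype.ext ?_) <;>
      simp [Sl2.ψf_apply, Tn, pderiv_mul, pd01, pd10] <;> ring

/-- the zero module -/
def Tzero : Sl2 PUnit where
  e := 0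
  h := 0
  f := 0
  he _ := rfl
  hf _ := rfl
  ef _ := rfl

/-- the translate of the trivial module is zero -/
noncomputable def transZero : Trans (Tn 0) (cc 0) Tzero where
  A := 0
  A' := 0
  κ := 2
  hκ := two_ne_zero
  A'A _ := rfl
  DA y := by
    refine Prod.ext (Subtype.ext ?_) (Subtype.ext ?_) <;>
      simp [DD_apply, Sl2.Ω_apply, Tn, cc, pd_zero y.1.2, pd_zero y.2.2]
  Ae _ := by simp
  Ah _ := by simp
  Af _ := by simp

/-- the modules of growing projective dimension -/
abbrev Xn (n : ℕ) : Type := Gam 5 (Fam.top ΦA (WM (Tn n) (cc n)))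

/-- the family concentrated in positive degrees -/
noncomputable def posFam : Fam ΦA (WM (Tn 0) (cc 0)) where
  F r := (TF (Wn 0) (r - 1)).toAddSubgroup
  smul_mem := by
    intro r s a x ha hx
    refine GG_act ((Tn 0).Wrep (cc 0)) (fun r => TF (Wn 0) (r - 1))
      (fun _ _ h => TF_mono (by omega)) (fun g r x hx => mem_TF.2 fun h => ?_) ha hx
    rw [Sl2.Wrep_γ]
    cases g
    all_goals
      first
        | (rw [mem_TF.1 hx (by simp only [wt] at h; omega), map_zero])
        | rfl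

/-- the radical part of `Xn 0` -/
noncomputable def radX : Submodule (Lam ΦA 5) (Xn 0) :=
  (Gam 5 posFam).comap (Gam 5 (Fam.top ΦA (WM (Tn 0) (cc 0)))).subtype

/-- quotient module as an object of the module category -/
noncomputable def quotMod (Λ : Type) [Ring Λ] (M : Type) [AddCommGroup M] [Module Λ M]
    (p : Submodule Λ M) : ModuleCat.{0} Λ := ModuleCat.of Λ (M ⧸ p)

lemma exists_quot (Λ : Type) [Ring Λ] (M : Type) [AddCommGroup M] [Module Λ M]
    (p : Submodule Λ M) :
    ∃ φ : M →ₗ[Λ] quotMod Λ M p, Function.Surjective φ ∧ ∀ x, φ x = 0 ↔ x ∈ p :=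
  ⟨p.mkQ, p.mkQ_surjective, fun _ => Submodule.Quotient.mk_eq_zero p⟩

/-- the test module -/
noncomputable def SS : ModuleCat.{0} (Lam ΦA 5) := quotMod (Lam ΦA 5) (Xn 0) radX

lemma SS_idem (m : Fin 5) (hm : m ≠ 0) (s : SS) : idem ΦA m • s = 0 := by
  obtain ⟨φ, hφ, hker⟩ := exists_quot (Lam ΦA 5) (Xn 0) radX
  obtain ⟨v, rfl⟩ := hφ s
  refine (map_smul φ (idem ΦA m) v).symm.trans
    ((hker _).2 fun j => (mem_TF (W := Wn 0)).2 fun hj => ?_)
  have : j = 0 := Fin.ext (by simp; omega)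
  subst this
  change ∑ i, (Matrix.single m m (1 : AA)) 0 i • v.1 i = 0
  refine Finset.sum_eq_zero fun i _ => ?_
  rw [Matrix.single_apply_of_row_ne hm, zero_smul]

lemma not_ev_zero : ¬ EV SS (Xn 0) 0 := by
  intro h
  obtain ⟨φ, -, hker⟩ := exists_quot (Lam ΦA 5) (Xn 0) radX
  have h1 := (ev_zero_iff SS).1 h φ
  let w : Wn 0 := ⟨1, isHomogeneous_one _ _⟩
  have h2 := (hker ⟨fun _ => w, fun _ => trivial⟩).1 (LinearMap.congr_fun h1 _)
  have h3 : w = 0 := mem_TF.1 (h2 0) (by simp)
  exact one_ne_zero (congrArg Subtype.val h3)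

lemma Xn_fpd (n : ℕ) : FPD (Lam ΦA 5) (Xn n) := by
  induction n with
  | zero =>
    refine step_fpd SS SS_idem transZero ?_
    have : Subsingleton (WM Tzero (cc 0 + 1)) := inferInstanceAs (Subsingleton PUnit)
    have := Gam_subsingleton 5 (Fam.top ΦA (WM Tzero (cc 0 + 1)))
    exact fpd_of_subsingleton
  | succ n ih =>
    refine step_fpd SS SS_idem (transSucc n) ?_
    rw [cc_succ]
    exact ih

lemma Xn_not_ev (n : ℕ) : ¬ EV SS (Xn n) (2 * n) := by
  induction n with
  | zero => exact not_ev_zero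
  | succ n ih =>
    intro h
    have := step_ev SS SS_idem (transSucc n) (2 * n) h
    rw [cc_succ] at this
    exact ih this

theorem main :
    ∃ (A : Type) (_ : Ring A) (_ : Algebra ℂ A), FiniteDimensional ℂ A ∧
      ∀ k : ℕ, ∃ N : ModuleCat.{0} A, Module.Finite A N ∧
        ¬ CategoryTheory.HasProjectiveDimensionLT N k ∧
        ∃ n : ℕ, CategoryTheory.HasProjectiveDimensionLT N n :=
  ⟨Lam ΦA 5, inferInstance, inferInstance, Lam_finiteDimensional ΦA 5 GG_fd, fun k =>
    ⟨ModuleCat.of _ (Xn k), finite_top (Tn k) (cc k),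
      not_pdLT_of_not_ev (Xn_not_ev k) (by omega), Xn_fpd k⟩⟩

end Crest.Agent.R178
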