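import Crest.Agent.R178.QMod

/-!
The Poincaré–Birkhoff–Witt model of `AA`: `AA ≃ Q P` with `P = ℂ[E, H, F]`.
-/

set_option autoImplicit false
set_option linter.unusedSimpArgs false

namespace Crest.Agent.R178

open Gen MvPolynomial

/-- polynomials in three variables -/
abbrev PP : Type := MvPolynomial (Fin 3) ℂ

/-- the shift `H ↦ H + 2` -/
noncomputable def τ : PP →ₐ[ℂ] PP := aeval ![X 0, X 1 + 1 + 1, X 2]

@[simp] lemma τ_X0 : τ (X 0) = X 0 := by simp [τ]
@[simp] lemma τ_X1 : τ (X 1) = X 1 + 1 + 1 := by simp [τ]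
@[simp] lemma τ_X2 : τ (X 2) = X 2 := by simp [τ]

/-- derivative in the first variable -/
noncomputable def dE : PP →ₗ[ℂ] PP := (pderiv (0 : Fin 3)).toLinearMap

lemma dE_mul (p q : PP) : dE (p * q) = dE p * q + p * dE q := pderiv_mul
@[simp] lemma dE_X0 : dE (X 0) = 1 := pderiv_X_self _
@[simp] lemma dE_X1 : dE (X 1) = 0 := pderiv_X_of_ne (by decide)
@[simp] lemma dE_X2 : dE (X 2) = 0 := pderiv_X_of_ne (by decide)
@[simp] lemma dE_one : dE 1 = 0 := pderiv_one
@[simp] lemma dE_C (c : ℂ) : dE (C c) = 0 := pderiv_C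

lemma dE_τ (p : PP) : dE (τ p) = τ (dE p) := by
  induction p using MvPolynomial.induction_on with
  | C c =>
    have : τ (C c) = C c := τ.commutes c
    rw [this]; simp
  | add p q hp hq => simp [hp, hq]
  | mul_X p i hp =>
    fin_cases i <;> simp [dE_mul, hp]

lemma dE_pow1 (b : ℕ) : dE (X 1 ^ b) = 0 := by
  induction b with
  | zero => simp
  | succ b ih => simp [pow_succ, dE_mul, ih]

lemma dE_pow2 (b : ℕ) : dE (X 2 ^ b) = 0 := by
  induction b with
  | zero => simp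
  | succ b ih => simp [pow_succ, dE_mul, ih]

/-- multiplication by a variable -/
noncomputable def mulX (i : Fin 3) : PP →ₗ[ℂ] PP := LinearMap.mulLeft ℂ (X i)

lemma mulX_apply (i : Fin 3) (p : PP) : mulX i p = X i * p := rfl

/-- The left regular representation of `U(sl₂)` in the PBW basis. -/
noncomputable def slP : Sl2 PP where
  e := mulX 0
  h := mulX 1 + mulX 0 ∘ₗ dE + mulX 0 ∘ₗ dE
  f := mulX 2 ∘ₗ τ.toLinearMap - mulX 1 ∘ₗ dE - mulX 0 ∘ₗ dE ∘ₗ dE
  he w := by simp [mulX_apply, dE_mul]; ring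
  hf w := by simp [mulX_apply, dE_mul, dE_τ]; ring
  ef w := by simp [mulX_apply, dE_mul]; ring

lemma slP_e (p : PP) : slP.e p = X 0 * p := rfl
lemma slP_h (p : PP) : slP.h p = X 1 * p + X 0 * dE p + X 0 * dE p := rfl
lemma slP_f (p : PP) : slP.f p = X 2 * τ p - X 1 * dE p - X 0 * dE (dE p) := rfl

/-- ordered monomials -/
noncomputable def mon (a b c : ℕ) : PP := X 0 ^ a * X 1 ^ b * X 2 ^ c

lemma monomial_eq_mon (m : Fin 3 →₀ ℕ) : monomial m (1 : ℂ) = mon (m 0) (m 1) (m 2) := by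
  rw [monomial_eq, Finsupp.prod_fintype _ _ (by simp), Fin.prod_univ_three]
  simp [mon]

/-- exponent vectors -/
noncomputable def expo (a b c : ℕ) : Fin 3 →₀ ℕ := Finsupp.equivFunOnFinite.symm ![a, b, c]

lemma mon_eq (a b c : ℕ) : mon a b c = monomial (expo a b c) 1 := by
  rw [monomial_eq_mon]; rfl

lemma P_hom_ext {V : Type} [AddCommGroup V] [Module ℂ V] {φ ψ : PP →ₗ[ℂ] V}
    (h : ∀ a b c, φ (mon a b c) = ψ (mon a b c)) : φ = ψ := by
  refine (basisMonomials (Fin 3) ℂ).ext fun m => ?_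
  rw [coe_basisMonomials]
  simp only [monomial_eq_mon, h]

lemma mon_succ₀ (a b c : ℕ) : X 0 * mon a b c = mon (a + 1) b c := by simp [mon]; ring
lemma mon_succ₁ (a b c : ℕ) : X 1 * mon a b c = mon a (b + 1) c := by simp [mon]; ring
lemma mon_succ₂ (a b c : ℕ) : X 2 * mon a b c = mon a b (c + 1) := by simp [mon]; ring

lemma dE_mon0 (b c : ℕ) : dE (mon 0 b c) = 0 := by simp [mon, dE_mul, dE_pow1, dE_pow2]

/-- ordering map -/
noncomputable def σ₀ : PP →ₗ[ℂ] AA :=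
  (basisMonomials (Fin 3) ℂ).constr ℂ fun m => γ e ^ m 0 * γ h ^ m 1 * γ f ^ m 2

lemma σ₀_mon (a b c : ℕ) : σ₀ (mon a b c) = γ e ^ a * γ h ^ b * γ f ^ c := by
  rw [mon_eq]
  have := (basisMonomials (Fin 3) ℂ).constr_basis ℂ
    (fun m => γ e ^ m 0 * γ h ^ m 1 * γ f ^ m 2) (expo a b c)
  rw [coe_basisMonomials] at this
  exact this

lemma σ₀_one : σ₀ 1 = 1 := by simpa [mon] using σ₀_mon 0 0 0

lemma σ₀_e (p : PP) : σ₀ (slP.e p) = γ e * σ₀ p := by
  have : σ₀ ∘ₗ slP.e = LinearMap.mulLeft ℂ (γ e) ∘ₗ σ₀ := P_hom_ext fun a b c => by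
    simp [slP_e, mon_succ₀, σ₀_mon, pow_succ', mul_assoc]
  exact LinearMap.congr_fun this p

lemma σ₀_h (p : PP) : σ₀ (slP.h p) = γ h * σ₀ p := by
  have : σ₀ ∘ₗ slP.h = LinearMap.mulLeft ℂ (γ h) ∘ₗ σ₀ := P_hom_ext fun a b c => by
    simp only [LinearMap.comp_apply, LinearMap.mulLeft_apply]
    induction a with
    | zero => simp [slP_h, dE_mon0, mon_succ₁, σ₀_mon, pow_succ', mul_assoc]
    | succ a ih =>
      rw [← mon_succ₀, ← slP_e, slP.he, map_add, map_add, σ₀_e, σ₀_e, ih, ← mul_assoc (γ h),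
        rels_γ.he]
      noncomm_ring
  exact LinearMap.congr_fun this p

lemma σ₀_shift (b b' c : ℕ) :
    σ₀ ((X 1 + 1 + 1) ^ b * mon 0 b' c) = (γ h + 1 + 1) ^ b * γ h ^ b' * γ f ^ c := by
  induction b generalizing b' with
  | zero => simp [σ₀_mon]
  | succ b ih =>
    have : (X 1 + 1 + 1 : PP) ^ (b + 1) * mon 0 b' c = (X 1 + 1 + 1) ^ b * mon 0 (b' + 1) c +
        (X 1 + 1 + 1) ^ b * mon 0 b' c + (X 1 + 1 + 1) ^ b * mon 0 b' c := by
      rw [← mon_succ₁]; ring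
    rw [this, map_add, map_add, ih, ih, pow_succ (γ h + 1 + 1), pow_succ' (γ h)]
    generalize (γ h + 1 + 1) ^ b = u
    generalize γ h ^ b' = w
    noncomm_ring

lemma f_mul_h_pow (b : ℕ) : γ f * γ h ^ b = (γ h + 1 + 1) ^ b * γ f := by
  induction b with
  | zero => simp
  | succ b ih =>
    have : γ f * γ h = (γ h + 1 + 1) * γ f := by rw [add_mul, add_mul, rels_γ.hf]; noncomm_ring
    rw [pow_succ, ← mul_assoc, ih, mul_assoc, this, pow_succ, mul_assoc]

lemma σ₀_f (p : PP) : σ₀ (slP.f p) = γ f * σ₀ p := by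
  have : σ₀ ∘ₗ slP.f = LinearMap.mulLeft ℂ (γ f) ∘ₗ σ₀ := P_hom_ext fun a b c => by
    simp only [LinearMap.comp_apply, LinearMap.mulLeft_apply]
    induction a with
    | zero =>
      have h1 : X 2 * τ (mon 0 b c) = (X 1 + 1 + 1) ^ b * mon 0 0 (c + 1) := by
        simp [mon]; ring
      rw [slP_f, dE_mon0, map_zero, mul_zero, mul_zero, sub_zero, sub_zero, h1, σ₀_shift, σ₀_mon,
        pow_zero, pow_zero, one_mul, mul_one, ← mul_assoc, f_mul_h_pow, pow_succ', mul_assoc]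
    | succ a ih =>
      have h1 : slP.f (slP.e (mon a b c)) = slP.e (slP.f (mon a b c)) - slP.h (mon a b c) := by
        rw [slP.ef]; abel
      have h2 : γ f * γ e = γ e * γ f - γ h := by rw [rels_γ.ef]; abel
      rw [← mon_succ₀, ← slP_e, h1, map_sub, σ₀_e, σ₀_e, σ₀_h, ih, ← mul_assoc (γ f), h2]
      noncomm_ring
  exact LinearMap.congr_fun this p

lemma t_σ₀ (p : PP) : γ t * σ₀ p = σ₀ p * γ t := by
  have : LinearMap.mulLeft ℂ (γ t) ∘ₗ σ₀ = LinearMap.mulRight ℂ (γ t) ∘ₗ σ₀ :=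
    P_hom_ext fun a b c => by
      simp only [LinearMap.comp_apply, LinearMap.mulLeft_apply, LinearMap.mulRight_apply, σ₀_mon]
      have he : Commute (γ t) (γ e) := rels_γ.te
      have hh : Commute (γ t) (γ h) := rels_γ.th
      have hf : Commute (γ t) (γ f) := rels_γ.tf
      exact (((he.pow_right a).mul_right (hh.pow_right b)).mul_right (hf.pow_right c)).eq
  exact LinearMap.congr_fun this p

/-- the `V ⊗ P` part of the ordering map -/
noncomputable def σV : PP × PP →ₗ[ℂ] AA :=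
  (LinearMap.mulLeft ℂ (γ v₁) ∘ₗ σ₀).coprod (LinearMap.mulLeft ℂ (γ v₂) ∘ₗ σ₀)

lemma σV_apply (y : PP × PP) : σV y = γ v₁ * σ₀ y.1 + γ v₂ * σ₀ y.2 := rfl

lemma σV_Ω (y : PP × PP) : σV (slP.Ω y) = σV y * γ t := by
  simp only [σV_apply, Sl2.Ω_apply, map_add, map_sub, σ₀_e, σ₀_h, σ₀_f, add_mul, mul_assoc,
    ← t_σ₀]
  simp only [← mul_assoc, rels_γ.v₁t, rels_γ.v₂t]
  noncomm_ring

lemma σV_Ω_pow (k : ℕ) (y : PP × PP) : σV ((slP.Ω ^ k) y) = σV y * γ t ^ k := by
  induction k with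
  | zero => simp
  | succ k ih => rw [pow_succ', Module.End.mul_apply, σV_Ω, ih, pow_succ, mul_assoc]

/-- the ordering map -/
noncomputable def σ : Q PP →ₗ[ℂ] AA :=
  (Finsupp.lsum ℂ fun k => LinearMap.mulLeft ℂ (γ t ^ k) ∘ₗ σ₀).coprod σV

lemma σ_single (k : ℕ) (p : PP) (y : PP × PP) :
    σ (Finsupp.single k p, y) = γ t ^ k * σ₀ p + σV y := by simp [σ]

lemma σ_zero (y : PP × PP) : σ (0, y) = σV y := by simp [σ]

lemma tpow_comm {x : AA} (h : γ t * x = x * γ t) (k : ℕ) (y : AA) :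
    x * (γ t ^ k * y) = γ t ^ k * (x * y) := by
  have : Commute (γ t) x := h
  rw [← mul_assoc, ← (this.pow_left k).eq, mul_assoc]

lemma σ_Qop (g : Gen) (x : Q PP) : σ (slP.Qop g x) = γ g * σ x := by
  have R := rels_γ
  have ht : ∀ k p, γ t ^ k * σ₀ p = σ₀ p * γ t ^ k := fun k p =>
    ((show Commute (γ t) (σ₀ p) from t_σ₀ p).pow_left k).eq
  have : σ ∘ₗ slP.Qop g = LinearMap.mulLeft ℂ (γ g) ∘ₗ σ := by
    refine Q_hom_ext (fun k p => ?_) (fun y => ?_)
    · simp only [LinearMap.comp_apply, LinearMap.mulLeft_apply, σ_single, map_zero, add_zero]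
      cases g
      · simp [Sl2.Qop_e, σ_single, σ₀_e, tpow_comm R.te]
      · simp [Sl2.Qop_h, σ_single, σ₀_h, tpow_comm R.th]
      · simp [Sl2.Qop_f, σ_single, σ₀_f, tpow_comm R.tf]
      · simp [Sl2.Qop_t, σ_single, pow_succ', mul_assoc]
      · rw [Sl2.Qop_v₁, σ_zero, Sl2.sumΩ_single, σV_Ω_pow]
        simp [σV_apply, ht, mul_assoc]
      · rw [Sl2.Qop_v₂, σ_zero, Sl2.sumΩ_single, σV_Ω_pow]
        simp [σV_apply, ht, mul_assoc]
    · simp only [LinearMap.comp_apply, LinearMap.mulLeft_apply, σ_zero]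
      cases g
      · simp only [Sl2.Qop_e, map_zero, σ_zero, σV_apply, Sl2.ψe_apply, map_add, σ₀_e, mul_add,
          ← mul_assoc, R.ev₁, R.ev₂]
        noncomm_ring
      · simp only [Sl2.Qop_h, map_zero, σ_zero, σV_apply, Sl2.ψh_apply, map_add, map_sub, σ₀_h,
          mul_add, mul_sub, ← mul_assoc, R.hv₁, R.hv₂]
        noncomm_ring
      · simp only [Sl2.Qop_f, map_zero, σ_zero, σV_apply, Sl2.ψf_apply, map_add, σ₀_f, mul_add,
          ← mul_assoc, R.fv₁, R.fv₂]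
        noncomm_ring
      · rw [Sl2.Qop_t, map_zero, σ_zero, map_add, σV_Ω]
        simp only [σV_apply, mul_add, add_mul, ← mul_assoc, R.tv₁, R.tv₂]
        simp only [mul_assoc, t_σ₀]
        abel
      · simp [Sl2.Qop_v₁, σ_zero, σV_apply, mul_add, ← mul_assoc, R.v₁₁, R.v₁₂]
      · simp [Sl2.Qop_v₂, σ_zero, σV_apply, mul_add, ← mul_assoc, R.v₂₁, R.v₂₂]
  exact LinearMap.congr_fun this x

lemma σ_Qrep (a : AA) : ∀ x : Q PP, σ (slP.Qrep a x) = a * σ x := by
  induction a using AA_induction with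
  | hc c => intro x; simp [Algebra.algebraMap_eq_smul_one]
  | hg g => intro x; rw [Sl2.Qrep_γ, σ_Qop]
  | hmul a b ha hb => intro x; rw [map_mul, Module.End.mul_apply, ha, hb, mul_assoc]
  | hadd a b ha hb => intro x; rw [map_add, LinearMap.add_apply, map_add, ha, hb, add_mul]

/-- evaluation at `1` -/
noncomputable def ev : AA →ₗ[ℂ] Q PP where
  toFun a := slP.Qrep a (emb PP 1)
  map_add' a b := by simp
  map_smul' c a := by simp

lemma ev_apply (a : AA) : ev a = slP.Qrep a (emb PP 1) := rfl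

lemma σ_ev (a : AA) : σ (ev a) = a := by
  rw [ev_apply, σ_Qrep, emb_apply, σ_single, σ₀_one]
  simp

lemma slP_mon (a b c : ℕ) : (slP.e ^ a) ((slP.h ^ b) ((slP.f ^ c) 1)) = mon a b c := by
  have hf : (slP.f ^ c) 1 = mon 0 0 c := by
    induction c with
    | zero => simp [mon]
    | succ c ih =>
      rw [pow_succ', Module.End.mul_apply, ih, slP_f, dE_mon0]
      simp [mon, pow_succ']
  have hh : (slP.h ^ b) (mon 0 0 c) = mon 0 b c := by
    induction b with
    | zero => simp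
    | succ b ih =>
      rw [pow_succ', Module.End.mul_apply, ih, slP_h, dE_mon0, mon_succ₁]
      simp
  rw [hf, hh]
  induction a with
  | zero => simp
  | succ a ih => rw [pow_succ', Module.End.mul_apply, ih, slP_e, mon_succ₀]

lemma Qrep_σ₀ (p : PP) : slP.Qrep (σ₀ p) (emb PP 1) = emb PP p := by
  have : ev ∘ₗ σ₀ = emb PP := P_hom_ext fun a b c => by
    rw [LinearMap.comp_apply, ev_apply, σ₀_mon, map_mul, map_mul, Module.End.mul_apply, Module.End.mul_apply, Sl2.Qrep_f_pow,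
      Sl2.Qrep_h_pow, Sl2.Qrep_e_pow, slP_mon]
  exact LinearMap.congr_fun this p

lemma ev_σ (x : Q PP) : ev (σ x) = x := by
  have : ev ∘ₗ σ = LinearMap.id := by
    refine Q_hom_ext (fun k p => ?_) (fun y => ?_)
    · rw [LinearMap.comp_apply, ev_apply, σ_single, map_zero, add_zero, map_mul,
        Module.End.mul_apply, Qrep_σ₀, Sl2.Qrep_t_pow, LinearMap.id_apply]
    · rw [LinearMap.comp_apply, ev_apply, σ_zero, σV_apply, map_add, map_mul, map_mul, LinearMap.add_apply, Module.End.mul_apply,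
        Module.End.mul_apply, Qrep_σ₀, Qrep_σ₀, Sl2.Qrep_γ, Sl2.Qrep_γ, Sl2.Qop_v₁_emb,
        Sl2.Qop_v₂_emb]
      simp
  exact LinearMap.congr_fun this x

end Crest.Agent.R178
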