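import Crest.Agent.R178.Alg

/-!
For an `sl₂`-module `W` we build the `AA`-module `Q W = W[t] ⊕ (V ⊗ W)` and the modules `W`
with `t` acting by a scalar.
-/

set_option autoImplicit false
set_option linter.unusedSimpArgs false
set_option linter.unusedSectionVars false
set_option linter.unusedTactic false
set_option linter.unreachableTactic false

namespace Crest.Agent.R178

open Gen

/-- An `sl₂`-triple of operators. -/
structure Sl2 (W : Type) [AddCommGroup W] [Module ℂ W] where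
  e : Module.End ℂ W
  h : Module.End ℂ W
  f : Module.End ℂ W
  he : ∀ w, h (e w) = e (h w) + e w + e w
  hf : ∀ w, h (f w) = f (h w) - f w - f w
  ef : ∀ w, e (f w) = f (e w) + h w

/-- The underlying space of the induced module. -/
abbrev Q (W : Type) [AddCommGroup W] : Type := (ℕ →₀ W) × (W × W)

section

variable {W W' W'' : Type} [AddCommGroup W] [Module ℂ W] [AddCommGroup W'] [Module ℂ W']
  [AddCommGroup W''] [Module ℂ W'']

/-- Functoriality of `Q` on vector spaces. -/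
noncomputable def mapQ (φ : W →ₗ[ℂ] W') : Q W →ₗ[ℂ] Q W' :=
  (Finsupp.mapRange.linearMap φ).prodMap (φ.prodMap φ)

lemma mapQ_apply (φ : W →ₗ[ℂ] W') (x : Q W) :
    mapQ φ x = (Finsupp.mapRange.linearMap φ x.1, φ x.2.1, φ x.2.2) := rfl

@[simp] lemma mapQ_fst (φ : W →ₗ[ℂ] W') (x : Q W) (k : ℕ) : (mapQ φ x).1 k = φ (x.1 k) := rfl
@[simp] lemma mapQ_snd₁ (φ : W →ₗ[ℂ] W') (x : Q W) : (mapQ φ x).2.1 = φ x.2.1 := rfl
@[simp] lemma mapQ_snd₂ (φ : W →ₗ[ℂ] W') (x : Q W) : (mapQ φ x).2.2 = φ x.2.2 := rfl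

lemma Q_ext {x y : Q W} (h₁ : ∀ k, x.1 k = y.1 k) (h₂ : x.2.1 = y.2.1) (h₃ : x.2.2 = y.2.2) :
    x = y := Prod.ext (Finsupp.ext h₁) (Prod.ext h₂ h₃)

lemma mapQ_mapQ (φ : W' →ₗ[ℂ] W'') (ψ : W →ₗ[ℂ] W') (x : Q W) :
    mapQ φ (mapQ ψ x) = mapQ (φ ∘ₗ ψ) x := Q_ext (fun _ => rfl) rfl rfl

lemma mapQ_id (x : Q W) : mapQ LinearMap.id x = x := Q_ext (fun _ => rfl) rfl rfl

lemma mapQ_sub (φ ψ : W →ₗ[ℂ] W') (x : Q W) : mapQ (φ - ψ) x = mapQ φ x - mapQ ψ x :=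
  Q_ext (fun _ => rfl) rfl rfl

lemma mapQ_zero (x : Q W) : mapQ (0 : W →ₗ[ℂ] W') x = 0 := Q_ext (fun _ => rfl) rfl rfl

lemma mapQ_sum {ι : Type} (s : Finset ι) (φ : ι → W →ₗ[ℂ] W') (x : Q W) :
    mapQ (∑ i ∈ s, φ i) x = ∑ i ∈ s, mapQ (φ i) x := by
  refine Q_ext (fun k => ?_) ?_ ?_ <;>
    simp [Prod.fst_sum, Prod.snd_sum, Finsupp.finsetSum_apply, LinearMap.sum_apply]

lemma mapQ_single (φ : W →ₗ[ℂ] W') (k : ℕ) (w : W) (y : W × W) :
    mapQ φ (Finsupp.single k w, y) = (Finsupp.single k (φ w), φ y.1, φ y.2) := by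
  simp [mapQ_apply]

lemma Q_hom_ext {V : Type} [AddCommGroup V] [Module ℂ V] {φ ψ : Q W →ₗ[ℂ] V}
    (h₁ : ∀ k w, φ (Finsupp.single k w, 0) = ψ (Finsupp.single k w, 0))
    (h₂ : ∀ y, φ (0, y) = ψ (0, y)) : φ = ψ :=
  LinearMap.prod_ext (Finsupp.lhom_ext fun k w => h₁ k w) (LinearMap.ext fun y => h₂ y)

/-- multiplication by `t` on `W[t]` -/
noncomputable def shiftT (W : Type) [AddCommGroup W] [Module ℂ W] : (ℕ →₀ W) →ₗ[ℂ] (ℕ →₀ W) :=
  Finsupp.lmapDomain W ℂ Nat.succ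

@[simp] lemma shiftT_single (k : ℕ) (w : W) :
    shiftT W (Finsupp.single k w) = Finsupp.single (k + 1) w := by
  simp [shiftT]

lemma shiftT_zero (p : ℕ →₀ W) : shiftT W p 0 = 0 := by
  simp only [shiftT, Finsupp.lmapDomain_apply]
  exact Finsupp.mapDomain_of_notMem_range _ _ (by simp)

lemma shiftT_succ (p : ℕ →₀ W) (k : ℕ) : shiftT W p (k + 1) = p k := by
  simp only [shiftT, Finsupp.lmapDomain_apply]
  exact Finsupp.mapDomain_apply Nat.succ_injective _ _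

namespace Sl2

variable (T : Sl2 W)

/-- action of `e` on `V ⊗ W` -/
def ψe : Module.End ℂ (W × W) where
  toFun y := (T.e y.1 + y.2, T.e y.2)
  map_add' x y := by ext <;> simp; abel
  map_smul' c x := by ext <;> simp

/-- action of `h` on `V ⊗ W` -/
def ψh : Module.End ℂ (W × W) where
  toFun y := (T.h y.1 + y.1, T.h y.2 - y.2)
  map_add' x y := by ext <;> simp <;> abel
  map_smul' c x := by ext <;> simp [smul_sub]

/-- action of `f` on `V ⊗ W` -/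
def ψf : Module.End ℂ (W × W) where
  toFun y := (T.f y.1, T.f y.2 + y.1)
  map_add' x y := by ext <;> simp; abel
  map_smul' c x := by ext <;> simp

/-- twice the split Casimir on `V ⊗ W` -/
def Ω : Module.End ℂ (W × W) where
  toFun y := (T.h y.1 + T.f y.2 + T.f y.2, T.e y.1 + T.e y.1 - T.h y.2)
  map_add' x y := by ext <;> simp <;> abel
  map_smul' c x := by ext <;> simp [smul_sub]

lemma ψe_apply (y : W × W) : T.ψe y = (T.e y.1 + y.2, T.e y.2) := rfl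
lemma ψh_apply (y : W × W) : T.ψh y = (T.h y.1 + y.1, T.h y.2 - y.2) := rfl
lemma ψf_apply (y : W × W) : T.ψf y = (T.f y.1, T.f y.2 + y.1) := rfl
lemma Ω_apply (y : W × W) :
    T.Ω y = (T.h y.1 + T.f y.2 + T.f y.2, T.e y.1 + T.e y.1 - T.h y.2) := rfl

lemma Ω_ψe (y : W × W) : T.Ω (T.ψe y) = T.ψe (T.Ω y) := by
  ext <;> simp only [ψe_apply, Ω_apply, map_add, map_sub, T.he, T.ef] <;> abel

lemma Ω_ψh (y : W × W) : T.Ω (T.ψh y) = T.ψh (T.Ω y) := by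
  ext <;> simp only [ψh_apply, Ω_apply, map_add, map_sub, T.he, T.hf] <;> abel

lemma Ω_ψf (y : W × W) : T.Ω (T.ψf y) = T.ψf (T.Ω y) := by
  ext <;> simp only [ψf_apply, Ω_apply, map_add, map_sub, T.hf, T.ef] <;> abel

lemma pow_comm {φ : Module.End ℂ (W × W)} (h : ∀ y, T.Ω (φ y) = φ (T.Ω y)) (k : ℕ) (y : W × W) :
    φ ((T.Ω ^ k) y) = (T.Ω ^ k) (φ y) := by
  have : Commute φ T.Ω := LinearMap.ext fun y => (h y).symm
  exact LinearMap.congr_fun (this.pow_right k).eq y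

/-- `∑ pₖ tᵏ ↦ ∑ Ωᵏ (j pₖ)` -/
noncomputable def sumΩ (j : W →ₗ[ℂ] W × W) : (ℕ →₀ W) →ₗ[ℂ] W × W :=
  Finsupp.lsum ℂ fun k => (T.Ω ^ k) ∘ₗ j

@[simp] lemma sumΩ_single (j : W →ₗ[ℂ] W × W) (k : ℕ) (w : W) :
    T.sumΩ j (Finsupp.single k w) = (T.Ω ^ k) (j w) := by
  simp [sumΩ]

/-- The generators acting on `Q W`. -/
noncomputable def Qop : Gen → Module.End ℂ (Q W)
  | .e => (Finsupp.mapRange.linearMap T.e).prodMap T.ψe
  | .h => (Finsupp.mapRange.linearMap T.h).prodMap T.ψh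
  | .f => (Finsupp.mapRange.linearMap T.f).prodMap T.ψf
  | .t => (shiftT W).prodMap (T.Ω + 1)
  | .v₁ => LinearMap.inr ℂ _ _ ∘ₗ T.sumΩ (LinearMap.inl ℂ W W) ∘ₗ LinearMap.fst ℂ _ _
  | .v₂ => LinearMap.inr ℂ _ _ ∘ₗ T.sumΩ (LinearMap.inr ℂ W W) ∘ₗ LinearMap.fst ℂ _ _

lemma Qop_e (x : Q W) : T.Qop .e x = (Finsupp.mapRange.linearMap T.e x.1, T.ψe x.2) := rfl
lemma Qop_h (x : Q W) : T.Qop .h x = (Finsupp.mapRange.linearMap T.h x.1, T.ψh x.2) := rfl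
lemma Qop_f (x : Q W) : T.Qop .f x = (Finsupp.mapRange.linearMap T.f x.1, T.ψf x.2) := rfl
lemma Qop_t (x : Q W) : T.Qop .t x = (shiftT W x.1, T.Ω x.2 + x.2) := rfl
lemma Qop_v₁ (x : Q W) : T.Qop .v₁ x = (0, T.sumΩ (LinearMap.inl ℂ W W) x.1) := rfl
lemma Qop_v₂ (x : Q W) : T.Qop .v₂ x = (0, T.sumΩ (LinearMap.inr ℂ W W) x.1) := rfl

lemma mr_single (φ : W →ₗ[ℂ] W') (k : ℕ) (w : W) :
    Finsupp.mapRange.linearMap φ (Finsupp.single k w) = Finsupp.single k (φ w) := by simp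

lemma rels_Qop : Rels T.Qop := by
  have pe := T.pow_comm T.Ω_ψe
  have ph := T.pow_comm T.Ω_ψh
  have pf := T.pow_comm T.Ω_ψf
  have pΩ := T.pow_comm (φ := T.Ω) (fun _ => rfl)
  constructor
  all_goals
    refine Q_hom_ext (fun k w => ?_) (fun y => ?_)
  all_goals
    simp only [Module.End.mul_apply, LinearMap.add_apply, LinearMap.sub_apply,
      LinearMap.zero_apply, Qop_e, Qop_h, Qop_f, Qop_t, Qop_v₁, Qop_v₂, mr_single, map_zero,
      shiftT_single, sumΩ_single, Prod.mk_add_mk, Prod.mk_sub_mk, add_zero, sub_zero,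
      T.he, T.hf, T.ef, Finsupp.single_add, Finsupp.single_sub, Prod.mk.injEq, true_and,
      and_true, pe, ph, pf, pΩ, Prod.mk_zero_zero, map_add, T.Ω_ψe, T.Ω_ψh, T.Ω_ψf, pow_succ,
      Prod.mk_eq_zero]
  all_goals
    first
      | rfl
      | (simp only [← map_add, ← map_sub]; congr 1; ext <;>
          simp [ψe_apply, ψh_apply, ψf_apply, Ω_apply, T.he, T.hf, T.ef] <;> abel)
      | (ext <;> simp [ψe_apply, ψh_apply, ψf_apply, Ω_apply, T.he, T.hf, T.ef] <;> abel)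

/-- The representation on `Q W`. -/
noncomputable def Qrep : AA →ₐ[ℂ] Module.End ℂ (Q W) := liftA T.Qop T.rels_Qop

@[simp] lemma Qrep_γ (g : Gen) : T.Qrep (γ g) = T.Qop g := liftA_γ _ _ _

/-- The generators acting on `W`, with `t` a scalar. -/
noncomputable def Wop (c : ℂ) : Gen → Module.End ℂ W
  | .e => T.e
  | .h => T.h
  | .f => T.f
  | .t => c • LinearMap.id
  | .v₁ => 0
  | .v₂ => 0

lemma rels_Wop (c : ℂ) : Rels (T.Wop c) := by
  constructor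
  all_goals
    ext w
    simp [Wop, T.he, T.hf, T.ef]

/-- The representation on `W`. -/
noncomputable def Wrep (c : ℂ) : AA →ₐ[ℂ] Module.End ℂ W := liftA (T.Wop c) (T.rels_Wop c)

@[simp] lemma Wrep_γ (c : ℂ) (g : Gen) : T.Wrep c (γ g) = T.Wop c g := liftA_γ _ _ _

end Sl2

/-- embedding of `W` as constants -/
noncomputable def emb (W : Type) [AddCommGroup W] [Module ℂ W] : W →ₗ[ℂ] Q W :=
  LinearMap.inl ℂ _ _ ∘ₗ Finsupp.lsingle 0

lemma emb_apply (w : W) : emb W w = (Finsupp.single 0 w, 0) := rfl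

/-- The filtration on `Q W` induced by a filtration on `W`. -/
def QF (FW : ℤ → Submodule ℂ W) (r : ℤ) : Submodule ℂ (Q W) where
  carrier := {x | (∀ k : ℕ, x.1 k ∈ FW (r - k)) ∧ x.2.1 ∈ FW (r + 1) ∧ x.2.2 ∈ FW (r + 1)}
  add_mem' ha hb := ⟨fun k => Submodule.add_mem _ (ha.1 k) (hb.1 k),
    Submodule.add_mem _ ha.2.1 hb.2.1, Submodule.add_mem _ ha.2.2 hb.2.2⟩
  zero_mem' := ⟨fun _ => Submodule.zero_mem _, Submodule.zero_mem _, Submodule.zero_mem _⟩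
  smul_mem' c _ ha := ⟨fun k => Submodule.smul_mem _ c (ha.1 k),
    Submodule.smul_mem _ c ha.2.1, Submodule.smul_mem _ c ha.2.2⟩

lemma mem_QF {FW : ℤ → Submodule ℂ W} {r : ℤ} {x : Q W} : x ∈ QF FW r ↔
    (∀ k : ℕ, x.1 k ∈ FW (r - k)) ∧ x.2.1 ∈ FW (r + 1) ∧ x.2.2 ∈ FW (r + 1) := Iff.rfl

lemma QF_mono {FW : ℤ → Submodule ℂ W} (h : Monotone FW) : Monotone (QF FW) :=
  fun _ _ hrs _ hx => ⟨fun k => h (by linarith) (hx.1 k), h (by linarith) hx.2.1,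
    h (by linarith) hx.2.2⟩

lemma mapQ_mem {FW : ℤ → Submodule ℂ W} {FW' : ℤ → Submodule ℂ W'} {φ : W →ₗ[ℂ] W'} {d : ℤ}
    (hφ : ∀ r w, w ∈ FW r → φ w ∈ FW' (r + d)) {r : ℤ} {x : Q W} (hx : x ∈ QF FW r) :
    mapQ φ x ∈ QF FW' (r + d) := by
  refine ⟨fun k => ?_, ?_, ?_⟩
  · have := hφ _ _ (hx.1 k)
    rwa [sub_add_eq_add_sub] at this
  · have := hφ _ _ hx.2.1
    rwa [add_right_comm] at this
  · have := hφ _ _ hx.2.2
    rwa [add_right_comm] at this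

lemma QF_le {FW : ℤ → Submodule ℂ W} {r : ℤ} (U : Submodule ℂ (Q W))
    (h₁ : ∀ (k : ℕ) w, w ∈ FW (r - k) → (Finsupp.single k w, (0 : W × W)) ∈ U)
    (h₂ : ∀ w, w ∈ FW (r + 1) → ((0 : ℕ →₀ W), (w, (0 : W))) ∈ U)
    (h₃ : ∀ w, w ∈ FW (r + 1) → ((0 : ℕ →₀ W), ((0 : W), w)) ∈ U) : QF FW r ≤ U := by
  rintro ⟨p, y₁, y₂⟩ hx
  have : ((p, y₁, y₂) : Q W) = (∑ k ∈ p.support, (Finsupp.single k (p k), (0 : W × W))) +
      ((0 : ℕ →₀ W), (y₁, (0 : W))) + ((0 : ℕ →₀ W), ((0 : W), y₂)) := by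
    refine Prod.ext ?_ ?_
    · simp only [Prod.fst_add, Prod.fst_sum, add_zero]
      exact (Finsupp.sum_single p).symm
    · simp [Prod.snd_sum]
  rw [this]
  exact U.add_mem (U.add_mem (U.sum_mem fun k _ => h₁ k _ (hx.1 k)) (h₂ _ hx.2.1)) (h₃ _ hx.2.2)

namespace Sl2

variable (T : Sl2 W) {FW : ℤ → Submodule ℂ W} (hm : Monotone FW)
  (he : ∀ r w, w ∈ FW r → T.e w ∈ FW (r + 1))
  (hh : ∀ r w, w ∈ FW r → T.h w ∈ FW (r + 1))
  (hf : ∀ r w, w ∈ FW r → T.f w ∈ FW (r + 1))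

include he hh hf in
lemma Ω_mem (r : ℤ) (y : W × W) (h₁ : y.1 ∈ FW r) (h₂ : y.2 ∈ FW r) :
    (T.Ω y).1 ∈ FW (r + 1) ∧ (T.Ω y).2 ∈ FW (r + 1) :=
  ⟨Submodule.add_mem _ (Submodule.add_mem _ (hh _ _ h₁) (hf _ _ h₂)) (hf _ _ h₂),
    Submodule.sub_mem _ (Submodule.add_mem _ (he _ _ h₁) (he _ _ h₁)) (hh _ _ h₂)⟩

include he hh hf in
lemma Ω_pow_mem (k : ℕ) (r : ℤ) (y : W × W) (h₁ : y.1 ∈ FW r) (h₂ : y.2 ∈ FW r) :
    ((T.Ω ^ k) y).1 ∈ FW (r + k) ∧ ((T.Ω ^ k) y).2 ∈ FW (r + k) := by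
  induction k with
  | zero => simpa using ⟨h₁, h₂⟩
  | succ k ih =>
    rw [pow_succ', Module.End.mul_apply, Nat.cast_succ, ← add_assoc]
    exact T.Ω_mem he hh hf _ _ ih.1 ih.2

include he hh hf in
lemma sumΩ_mem (j : W →ₗ[ℂ] W × W) (hj : ∀ r w, w ∈ FW r → (j w).1 ∈ FW r ∧ (j w).2 ∈ FW r)
    (r : ℤ) (p : ℕ →₀ W) (hp : ∀ k : ℕ, p k ∈ FW (r - k)) :
    (T.sumΩ j p).1 ∈ FW r ∧ (T.sumΩ j p).2 ∈ FW r := by
  have key : ∀ k : ℕ, ((T.Ω ^ k) (j (p k))).1 ∈ FW r ∧ ((T.Ω ^ k) (j (p k))).2 ∈ FW r := by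
    intro k
    have := T.Ω_pow_mem he hh hf k _ _ (hj _ _ (hp k)).1 (hj _ _ (hp k)).2
    rwa [sub_add_cancel] at this
  simp only [sumΩ, Finsupp.lsum_apply, Finsupp.sum, Prod.fst_sum, Prod.snd_sum]
  exact ⟨Submodule.sum_mem _ fun k _ => (key k).1, Submodule.sum_mem _ fun k _ => (key k).2⟩

include hm he hh hf in
lemma Qop_mem (g : Gen) (r : ℤ) (x : Q W) (hx : x ∈ QF FW r) :
    T.Qop g x ∈ QF FW (wt g + r) := by
  obtain ⟨h₀, h₁, h₂⟩ := hx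
  have e1 : ∀ k : ℕ, 1 + r - (k : ℤ) = r - k + 1 := fun k => by ring
  have e2 : 1 + r + 1 = r + 1 + 1 := by ring
  have m1 : FW (r + 1) ≤ FW (r + 1 + 1) := hm (by linarith)
  cases g
  · refine ⟨fun k => ?_, ?_, ?_⟩ <;> simp only [wt, e1, e2]
    · exact he _ _ (h₀ k)
    · exact Submodule.add_mem _ (he _ _ h₁) (m1 h₂)
    · exact he _ _ h₂
  · refine ⟨fun k => ?_, ?_, ?_⟩ <;> simp only [wt, e1, e2]
    · exact hh _ _ (h₀ k)
    · exact Submodule.add_mem _ (hh _ _ h₁) (m1 h₁)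
    · exact Submodule.sub_mem _ (hh _ _ h₂) (m1 h₂)
  · refine ⟨fun k => ?_, ?_, ?_⟩ <;> simp only [wt, e1, e2]
    · exact hf _ _ (h₀ k)
    · exact hf _ _ h₁
    · exact Submodule.add_mem _ (hf _ _ h₂) (m1 h₁)
  · refine ⟨fun k => ?_, ?_, ?_⟩ <;> simp only [wt, e2]
    · rw [Qop_t]
      cases k with
      | zero => simp only [shiftT_zero]; exact Submodule.zero_mem _
      | succ k =>
        simp only [shiftT_succ]
        have : 1 + r - ((k + 1 : ℕ) : ℤ) = r - k := by push_cast; ring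
        rw [this]
        exact h₀ k
    · exact Submodule.add_mem _ (T.Ω_mem he hh hf _ _ h₁ h₂).1 (m1 h₁)
    · exact Submodule.add_mem _ (T.Ω_mem he hh hf _ _ h₁ h₂).2 (m1 h₂)
  · have := T.sumΩ_mem he hh hf (LinearMap.inl ℂ W W)
      (fun r w hw => ⟨hw, Submodule.zero_mem _⟩) r _ h₀
    have e3 : wt .v₁ + r + 1 = r := by simp [wt]
    exact ⟨fun k => Submodule.zero_mem _, by rw [e3]; exact this.1, by rw [e3]; exact this.2⟩
  · have := T.sumΩ_mem he hh hf (LinearMap.inr ℂ W W)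
      (fun r w hw => ⟨Submodule.zero_mem _, hw⟩) r _ h₀
    have e3 : wt .v₂ + r + 1 = r := by simp [wt]
    exact ⟨fun k => Submodule.zero_mem _, by rw [e3]; exact this.1, by rw [e3]; exact this.2⟩

include hm he hh hf in
lemma Qrep_mem {r s : ℤ} {a : AA} {x : Q W} (ha : a ∈ GG r) (hx : x ∈ QF FW s) :
    T.Qrep a x ∈ QF FW (r + s) :=
  GG_act T.Qrep (QF FW) (QF_mono hm)
    (fun g r x hx => by rw [Qrep_γ]; exact T.Qop_mem hm he hh hf g r x hx) ha hx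

lemma Qrep_e_pow (n : ℕ) (w : W) : T.Qrep (γ .e ^ n) (emb W w) = emb W ((T.e ^ n) w) := by
  induction n with
  | zero => simp
  | succ n ih => simp [pow_succ', ih, Qop_e, emb_apply] at ih ⊢; simp [ih, Qop_e]

lemma Qrep_h_pow (n : ℕ) (w : W) : T.Qrep (γ .h ^ n) (emb W w) = emb W ((T.h ^ n) w) := by
  induction n with
  | zero => simp
  | succ n ih => simp [pow_succ', ih, Qop_h, emb_apply] at ih ⊢; simp [ih, Qop_h]

lemma Qrep_f_pow (n : ℕ) (w : W) : T.Qrep (γ .f ^ n) (emb W w) = emb W ((T.f ^ n) w) := by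
  induction n with
  | zero => simp
  | succ n ih => simp [pow_succ', ih, Qop_f, emb_apply] at ih ⊢; simp [ih, Qop_f]

lemma Qrep_t_pow (n : ℕ) (w : W) :
    T.Qrep (γ .t ^ n) (emb W w) = (Finsupp.single n w, 0) := by
  induction n with
  | zero => simp [emb_apply]
  | succ n ih => simp [pow_succ', ih, Qop_t, emb_apply] at ih ⊢; simp [ih, Qop_t]

lemma Qop_v₁_emb (w : W) : T.Qop .v₁ (emb W w) = (0, w, 0) := by
  simp [Qop_v₁, emb_apply]

lemma Qop_v₂_emb (w : W) : T.Qop .v₂ (emb W w) = (0, 0, w) := by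
  simp [Qop_v₂, emb_apply]

end Sl2

/-- the trivial filtration -/
def TF (W : Type) [AddCommGroup W] [Module ℂ W] (r : ℤ) : Submodule ℂ W :=
  if 0 ≤ r then ⊤ else ⊥

lemma mem_TF {r : ℤ} {w : W} : w ∈ TF W r ↔ (r < 0 → w = 0) := by
  unfold TF
  split_ifs with h
  · simp only [Submodule.mem_top, true_iff]; intro h'; omega
  · simp only [Submodule.mem_bot]; exact ⟨fun h' _ => h', fun h' => h' (by omega)⟩

lemma TF_mono : Monotone (TF W) := fun _ _ hrs _ hw =>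
  mem_TF.2 fun h => mem_TF.1 hw (by omega)

lemma TF_map (φ : W →ₗ[ℂ] W') (d : ℤ) (hd : 0 ≤ d) (r : ℤ) (w : W) (hw : w ∈ TF W r) :
    φ w ∈ TF W' (r + d) :=
  mem_TF.2 fun h => by rw [mem_TF.1 hw (by omega), map_zero]

end

end Crest.Agent.R178
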