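import Crest.Agent.R178.Gamma

/-!
A filtered "regular sequence" of three module endomorphisms gives a length three resolution
over the window algebra.
-/

set_option autoImplicit false

universe u

namespace Crest.Agent.R178

variable {k : Type u} [Field k] {A : Type u} [Ring A] [Algebra k A] {Φ : Filt k A}
variable {M : Type u} [AddCommGroup M]

/-- Model operators: three commuting degree one shifts with left inverses. -/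
structure Reg (F : ℤ → AddSubgroup M) where
  s₁ : M →+ M
  s₂ : M →+ M
  s₃ : M →+ M
  d₁ : M →+ M
  d₂ : M →+ M
  d₃ : M →+ M
  hs₁ : ∀ r a, a ∈ F r → s₁ a ∈ F (r + 1)
  hs₂ : ∀ r a, a ∈ F r → s₂ a ∈ F (r + 1)
  hs₃ : ∀ r a, a ∈ F r → s₃ a ∈ F (r + 1)
  hd₁ : ∀ r a, a ∈ F r → d₁ a ∈ F (r - 1)
  hd₂ : ∀ r a, a ∈ F r → d₂ a ∈ F (r - 1)
  hd₃ : ∀ r a, a ∈ F r → d₃ a ∈ F (r - 1)
  ds₁ : ∀ a, d₁ (s₁ a) = a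
  ds₂ : ∀ a, d₂ (s₂ a) = a
  ds₃ : ∀ a, d₃ (s₃ a) = a
  d₁s₂ : ∀ a, d₁ (s₂ a) = s₂ (d₁ a)
  d₁s₃ : ∀ a, d₁ (s₃ a) = s₃ (d₁ a)
  d₂s₃ : ∀ a, d₂ (s₃ a) = s₃ (d₂ a)
  s₁s₂ : ∀ a, s₁ (s₂ a) = s₂ (s₁ a)
  s₁s₃ : ∀ a, s₁ (s₃ a) = s₃ (s₁ a)
  s₂s₃ : ∀ a, s₂ (s₃ a) = s₃ (s₂ a)

namespace Reg

variable {F : ℤ → AddSubgroup M} (R : Reg F)

/-- projections killing one variable -/
def p₁ (a : M) : M := a - R.s₁ (R.d₁ a)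
/-- projections killing one variable -/
def p₂ (a : M) : M := a - R.s₂ (R.d₂ a)
/-- projections killing one variable -/
def p₃ (a : M) : M := a - R.s₃ (R.d₃ a)

lemma hp₁ {r : ℤ} {a : M} (ha : a ∈ F r) : R.p₁ a ∈ F r := by
  have := R.hs₁ _ _ (R.hd₁ _ _ ha)
  rw [sub_add_cancel] at this
  exact AddSubgroup.sub_mem _ ha this

lemma hp₂ {r : ℤ} {a : M} (ha : a ∈ F r) : R.p₂ a ∈ F r := by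
  have := R.hs₂ _ _ (R.hd₂ _ _ ha)
  rw [sub_add_cancel] at this
  exact AddSubgroup.sub_mem _ ha this

lemma gr₁ {r : ℤ} {a : M} (h : R.s₁ a ∈ F r) : a ∈ F (r - 1) := by
  have := R.hd₁ _ _ h
  rwa [R.ds₁] at this

lemma gr₂ {r : ℤ} {a b c : M} (hc : c ∈ F r) (h : R.s₂ a = R.s₁ b + c) :
    R.p₁ a ∈ F (r - 1) := by
  have h1 : R.p₁ a = R.d₂ (R.p₁ c) := by
    have : R.s₂ (R.p₁ a) = R.p₁ c := by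
      unfold p₁
      rw [map_sub, ← R.s₁s₂, ← R.d₁s₂, h, map_add, map_add, R.ds₁]
      abel
    rw [← this, R.ds₂]
  rw [h1]
  exact R.hd₂ _ _ (R.hp₁ hc)

lemma gr₃ {r : ℤ} {a b b' c : M} (hc : c ∈ F r) (h : R.s₃ a = R.s₁ b + R.s₂ b' + c) :
    R.p₂ (R.p₁ a) ∈ F (r - 1) := by
  have h1 : R.p₂ (R.p₁ a) = R.d₃ (R.p₂ (R.p₁ c)) := by
    have h0 : R.s₃ (R.p₁ a) = R.s₂ (R.p₁ b') + R.p₁ c := by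
      unfold p₁
      rw [map_sub, ← R.s₁s₃, ← R.d₁s₃, h]
      simp only [map_add, map_sub, R.ds₁, R.d₁s₂, R.s₁s₂]
      abel
    have : R.s₃ (R.p₂ (R.p₁ a)) = R.p₂ (R.p₁ c) := by
      unfold p₂
      rw [map_sub, ← R.s₂s₃, ← R.d₂s₃, h0, map_add, map_add, R.ds₂]
      abel
    rw [← this, R.ds₃]
  rw [h1]
  exact R.hd₃ _ _ (R.hp₂ (R.hp₁ hc))

end Reg

section step

variable {F K K' : ℤ → AddSubgroup M} {ρ : M → M}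

lemma step_inj (hadd : ∀ a b, ρ (a + b) = ρ a + ρ b) (r₀ : ℤ) (hbot : ∀ r ≤ r₀, F r = ⊥)
    (hK'mono : ∀ r, K' r ≤ K' (r + 1))
    (hρF : ∀ r a, a ∈ F r → ρ a ∈ F (r + 1))
    (hstrict : ∀ r x, x ∈ K (r + 1) → x ∈ F r → x ∈ K r)
    (hρK : ∀ r a, a ∈ K' r → ρ a ∈ K (r + 1))
    (hgr : ∀ r a x c, a ∈ F r → x ∈ K (r + 1) → c ∈ F r → ρ a = x + c →
      ∃ k' ∈ K' r, ∃ a' ∈ F (r - 1), a = k' + a') :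
    ∀ r a, a ∈ F r → ρ a ∈ K (r + 1) → a ∈ K' r := by
  intro r
  rcases le_total r r₀ with hr | hr
  · intro a ha _
    rw [hbot r hr, AddSubgroup.mem_bot] at ha
    rw [ha]
    exact AddSubgroup.zero_mem _
  · induction r, hr using Int.leInduction with
    | base =>
      intro a ha _
      rw [hbot r₀ le_rfl, AddSubgroup.mem_bot] at ha
      rw [ha]
      exact AddSubgroup.zero_mem _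
    | succ r _ ih =>
      intro a ha hρ
      obtain ⟨k', hk', a', ha', rfl⟩ :=
        hgr (r + 1) a (ρ a) 0 ha hρ (AddSubgroup.zero_mem _) (add_zero _).symm
      rw [add_sub_cancel_right] at ha'
      refine AddSubgroup.add_mem _ hk' (hK'mono r (ih a' ha' ?_))
      refine hstrict _ _ ?_ (hρF _ _ ha')
      have : ρ a' = ρ (k' + a') - ρ k' := by rw [hadd]; abel
      rw [this]
      exact AddSubgroup.sub_mem _ hρ (hρK _ _ hk')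

lemma step_strict (hadd : ∀ a b, ρ (a + b) = ρ a + ρ b)
    (hρF : ∀ r a, a ∈ F r → ρ a ∈ F (r + 1))
    (hstrict : ∀ r x, x ∈ K (r + 1) → x ∈ F r → x ∈ K r)
    (hρK : ∀ r a, a ∈ K' r → ρ a ∈ K (r + 1))
    (hgr : ∀ r a x c, a ∈ F r → x ∈ K (r + 1) → c ∈ F r → ρ a = x + c →
      ∃ k' ∈ K' r, ∃ a' ∈ F (r - 1), a = k' + a') (r : ℤ) (x a : M)
    (hx : x ∈ K (r + 1)) (ha : a ∈ F r) (h : x + ρ a ∈ F r) :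
    ∃ y ∈ K r, ∃ a' ∈ F (r - 1), x + ρ a = y + ρ a' := by
  obtain ⟨k', hk', a', ha', rfl⟩ :=
    hgr r a (-x) (x + ρ a) ha (AddSubgroup.neg_mem _ hx) h (by abel)
  refine ⟨x + ρ k', hstrict _ _ (AddSubgroup.add_mem _ hx (hρK _ _ hk')) ?_, a', ha', ?_⟩
  · have h2 := hρF _ _ ha'
    rw [sub_add_cancel] at h2
    have : x + ρ k' = x + ρ (k' + a') - ρ a' := by rw [hadd]; abel
    rw [this]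
    exact AddSubgroup.sub_mem _ h h2
  · rw [hadd]; abel

end step

variable [Module A M]

/-- Add the image of an endomorphism to a family. -/
def Fam.addRange (𝓚 𝓕 : Fam Φ M) (ρ : M →ₗ[A] M) : Fam Φ M where
  F r :=
    { carrier := {x | ∃ y ∈ 𝓚.F r, ∃ a ∈ 𝓕.F (r - 1), x = y + ρ a}
      add_mem' := by
        rintro _ _ ⟨y, hy, a, ha, rfl⟩ ⟨y', hy', a', ha', rfl⟩
        exact ⟨y + y', AddSubgroup.add_mem _ hy hy', a + a', AddSubgroup.add_mem _ ha ha',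
          by rw [map_add]; abel⟩
      zero_mem' := ⟨0, AddSubgroup.zero_mem _, 0, AddSubgroup.zero_mem _, by simp⟩
      neg_mem' := by
        rintro _ ⟨y, hy, a, ha, rfl⟩
        exact ⟨-y, AddSubgroup.neg_mem _ hy, -a, AddSubgroup.neg_mem _ ha,
          by rw [map_neg]; abel⟩ }
  smul_mem := by
    rintro r s c _ hc ⟨y, hy, a, ha, rfl⟩
    refine ⟨c • y, 𝓚.smul_mem hc hy, c • a, ?_, by rw [smul_add, map_smul]⟩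
    have := 𝓕.smul_mem hc ha
    rwa [← add_sub_assoc] at this

lemma Fam.mem_addRange {𝓚 𝓕 : Fam Φ M} {ρ : M →ₗ[A] M} {r : ℤ} {x : M} :
    x ∈ (𝓚.addRange 𝓕 ρ).F r ↔ ∃ y ∈ 𝓚.F r, ∃ a ∈ 𝓕.F (r - 1), x = y + ρ a := Iff.rfl

variable (N : ℕ) (S : ModuleCat.{u} (Lam Φ N))

/-- finite projective dimension and no extensions with `S` -/
def Good {M : Type u} [AddCommGroup M] [Module A M] (𝓕 : Fam Φ M) : Prop :=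
  FPD (Lam Φ N) (Gam N 𝓕) ∧ ∀ i, EV S (Gam N 𝓕) i

lemma good_bot (m : ℤ) : Good N S ((Fam.bot Φ M).shift m) :=
  have : Subsingleton (Gam N ((Fam.bot Φ M).shift m)) :=
    inferInstanceAs (Subsingleton (Gam N (Fam.bot Φ M)))
  ⟨fpd_of_subsingleton, ev_of_subsingleton S⟩

lemma good_prod {M' : Type u} [AddCommGroup M'] [Module A M'] {𝓕 : Fam Φ M} {𝓕' : Fam Φ M'}
    (h : Good N S 𝓕) (h' : Good N S 𝓕') : Good N S (𝓕.prod 𝓕') :=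
  ⟨(Gprod_ses N 𝓕 𝓕').fpd₂ h.1 h'.1, fun i => (Gprod_ses N 𝓕 𝓕').ev₂ (h.2 i) (h'.2 i)⟩

lemma good_addRange {𝓚 𝓚' 𝓕 : Fam Φ M} {ρ : M →ₗ[A] M} (m : ℤ)
    (hK'F : ∀ r a, a ∈ 𝓚'.F r → a ∈ 𝓕.F r)
    (hρK : ∀ r a, a ∈ 𝓚'.F r → ρ a ∈ 𝓚.F (r + 1))
    (hinj : ∀ r a, a ∈ 𝓕.F r → ρ a ∈ 𝓚.F (r + 1) → a ∈ 𝓚'.F r)
    (h₁ : Good N S (𝓚'.shift (m + 1))) (h₂ : Good N S (𝓚.shift m))
    (h₃ : Good N S (𝓕.shift (m + 1))) : Good N S ((𝓚.addRange 𝓕 ρ).shift m) := by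
  have e : ∀ j : ℤ, j - (m + 1) + 1 = j - m := fun j => by ring
  have e' : ∀ j : ℤ, j - m - 1 = j - (m + 1) := fun j => by ring
  have h := Gmap_ses N (𝓚'.shift (m + 1)) ((𝓚.shift m).prod (𝓕.shift (m + 1)))
    ((𝓚.addRange 𝓕 ρ).shift m) (LinearMap.prod ρ (-LinearMap.id))
    (LinearMap.coprod LinearMap.id ρ)
    (fun j x hx => ⟨by have := hρK _ _ hx; rwa [e] at this,
      AddSubgroup.neg_mem _ (hK'F _ _ hx)⟩)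
    (fun j x hx => ⟨x.1, hx.1, x.2, by rw [e']; exact hx.2, rfl⟩)
    (fun j x _ h => by simpa using congrArg Prod.snd h)
    (by
      rintro j _ ⟨y, hy, a, ha, rfl⟩
      exact ⟨(y, a), ⟨hy, by rw [e'] at ha; exact ha⟩, rfl⟩)
    (fun j x _ => by simp)
    (by
      rintro j ⟨y, a⟩ ⟨hy, ha⟩ h
      have h' : y + ρ a = 0 := h
      have hy' : y = ρ (-a) := by rw [map_neg]; exact eq_neg_of_add_eq_zero_left h'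
      refine ⟨-a, hinj _ _ (AddSubgroup.neg_mem _ ha) ?_, ?_⟩
      · rw [e, ← hy']; exact hy
      · rw [hy']; simp)
  have h' := good_prod N S h₂ h₃
  exact ⟨h.fpd₃ h₁.1 h'.1, h.ev₃_all h₁.2 h'.2⟩

section three

variable {𝓕 : Fam Φ M} (R : Reg 𝓕.F) (ρ₁ ρ₂ ρ₂' ρ₃ : M →ₗ[A] M)

/-- The hypotheses on a filtered regular sequence of length three. -/
structure RegSeq : Prop where
  mono : ∀ r, 𝓕.F r ≤ 𝓕.F (r + 1)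
  bot : ∃ r₀ : ℤ, ∀ r ≤ r₀, 𝓕.F r = ⊥
  a₁ : ∀ r a, a ∈ 𝓕.F r → ρ₁ a - R.s₁ a ∈ 𝓕.F r
  a₂ : ∀ r a, a ∈ 𝓕.F r → ρ₂ a - R.s₂ a ∈ 𝓕.F r
  a₂' : ∀ r a, a ∈ 𝓕.F r → ρ₂' a - R.s₂ a ∈ 𝓕.F r
  a₃ : ∀ r a, a ∈ 𝓕.F r → ρ₃ a - R.s₃ a ∈ 𝓕.F r
  c₂₁ : ∀ r a, a ∈ 𝓕.F r → ∃ b ∈ 𝓕.F (r + 1), ρ₂ (ρ₁ a) = ρ₁ b
  c₂₁' : ∀ r a, a ∈ 𝓕.F r → ∃ b ∈ 𝓕.F (r + 1), ρ₂' (ρ₁ a) = ρ₁ b
  c₃₁ : ∀ r a, a ∈ 𝓕.F r → ∃ b ∈ 𝓕.F (r + 1), ∃ c ∈ 𝓕.F (r + 1), ρ₃ (ρ₁ a) = ρ₁ b + ρ₂ c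
  c₃₂ : ∀ r a, a ∈ 𝓕.F r → ∃ b ∈ 𝓕.F (r + 1), ∃ c ∈ 𝓕.F (r + 1), ρ₃ (ρ₂' a) = ρ₁ b + ρ₂ c

variable (𝓕) in
/-- first kernel family -/
def K₁ : Fam Φ M := (Fam.bot Φ M).addRange 𝓕 ρ₁
variable (𝓕) in
/-- second kernel family -/
def K₂ : Fam Φ M := (K₁ 𝓕 ρ₁).addRange 𝓕 ρ₂
variable (𝓕) in
/-- third kernel family -/
def K₃ : Fam Φ M := (K₂ 𝓕 ρ₁ ρ₂).addRange 𝓕 ρ₃

variable {ρ₁ ρ₂ ρ₂' ρ₃}

lemma mem_K₁ {r : ℤ} {x : M} : x ∈ (K₁ 𝓕 ρ₁).F r ↔ ∃ a ∈ 𝓕.F (r - 1), x = ρ₁ a := by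
  constructor
  · rintro ⟨y, hy, a, ha, rfl⟩
    have : y = 0 := hy
    exact ⟨a, ha, by rw [this, zero_add]⟩
  · rintro ⟨a, ha, rfl⟩
    exact ⟨0, AddSubgroup.zero_mem _, a, ha, (zero_add _).symm⟩

lemma mem_K₂ {r : ℤ} {x : M} :
    x ∈ (K₂ 𝓕 ρ₁ ρ₂).F r ↔ ∃ a ∈ 𝓕.F (r - 1), ∃ b ∈ 𝓕.F (r - 1), x = ρ₁ a + ρ₂ b := by
  constructor
  · rintro ⟨y, hy, b, hb, rfl⟩
    obtain ⟨a, ha, rfl⟩ := mem_K₁.1 hy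
    exact ⟨a, ha, b, hb, rfl⟩
  · rintro ⟨a, ha, b, hb, rfl⟩
    exact ⟨_, mem_K₁.2 ⟨a, ha, rfl⟩, b, hb, rfl⟩

lemma mem_K₃ {r : ℤ} {x : M} :
    x ∈ (K₃ 𝓕 ρ₁ ρ₂ ρ₃).F r ↔ ∃ a ∈ 𝓕.F (r - 1), ∃ b ∈ 𝓕.F (r - 1), ∃ c ∈ 𝓕.F (r - 1),
      x = ρ₁ a + ρ₂ b + ρ₃ c := by
  constructor
  · rintro ⟨y, hy, c, hc, rfl⟩
    obtain ⟨a, ha, b, hb, rfl⟩ := mem_K₂.1 hy
    exact ⟨a, ha, b, hb, c, hc, rfl⟩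
  · rintro ⟨a, ha, b, hb, c, hc, rfl⟩
    exact ⟨_, mem_K₂.2 ⟨a, ha, b, hb, rfl⟩, c, hc, rfl⟩

variable {R}

lemma approx_deg {ρ : M →ₗ[A] M} {s : M →+ M} (mono : ∀ r, 𝓕.F r ≤ 𝓕.F (r + 1))
    (hs : ∀ r a, a ∈ 𝓕.F r → s a ∈ 𝓕.F (r + 1))
    (h : ∀ r a, a ∈ 𝓕.F r → ρ a - s a ∈ 𝓕.F r) (r : ℤ) (a : M) (ha : a ∈ 𝓕.F r) :
    ρ a ∈ 𝓕.F (r + 1) := by
  have := AddSubgroup.add_mem _ (mono r (h r a ha)) (hs r a ha)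
  rwa [sub_add_cancel] at this

namespace RegSeq

variable (H : RegSeq R ρ₁ ρ₂ ρ₂' ρ₃)
include H

lemma mono' (r : ℤ) : 𝓕.F (r - 1) ≤ 𝓕.F r := by
  have := H.mono (r - 1)
  rwa [sub_add_cancel] at this

lemma deg₁ : ∀ r a, a ∈ 𝓕.F r → ρ₁ a ∈ 𝓕.F (r + 1) := approx_deg H.mono R.hs₁ H.a₁
lemma deg₂ : ∀ r a, a ∈ 𝓕.F r → ρ₂ a ∈ 𝓕.F (r + 1) := approx_deg H.mono R.hs₂ H.a₂
lemma deg₂' : ∀ r a, a ∈ 𝓕.F r → ρ₂' a ∈ 𝓕.F (r + 1) := approx_deg H.mono R.hs₂ H.a₂'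
lemma deg₃ : ∀ r a, a ∈ 𝓕.F r → ρ₃ a ∈ 𝓕.F (r + 1) := approx_deg H.mono R.hs₃ H.a₃

lemma gr₁ (r : ℤ) (a x c : M) (ha : a ∈ 𝓕.F r) (hx : x ∈ (Fam.bot Φ M).F (r + 1))
    (hc : c ∈ 𝓕.F r) (h : ρ₁ a = x + c) :
    ∃ k' ∈ (Fam.bot Φ M).F r, ∃ a' ∈ 𝓕.F (r - 1), a = k' + a' := by
  have hx0 : x = 0 := hx
  refine ⟨0, AddSubgroup.zero_mem _, a, R.gr₁ ?_, (zero_add _).symm⟩
  have : R.s₁ a = c - (ρ₁ a - R.s₁ a) := by rw [h, hx0]; abel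
  rw [this]
  exact AddSubgroup.sub_mem _ hc (H.a₁ _ _ ha)

lemma inj₁ : ∀ r a, a ∈ 𝓕.F r → ρ₁ a ∈ (Fam.bot Φ M).F (r + 1) → a ∈ (Fam.bot Φ M).F r := by
  obtain ⟨r₀, h₀⟩ := H.bot
  refine step_inj (map_add ρ₁) r₀ h₀ (fun _ => le_rfl) H.deg₁ (fun _ _ h _ => h) ?_ H.gr₁
  intro r a ha
  have : a = 0 := ha
  rw [this, map_zero]
  exact AddSubgroup.zero_mem _

lemma strict₁ (r : ℤ) (x : M) (hx : x ∈ (K₁ 𝓕 ρ₁).F (r + 1)) (hx' : x ∈ 𝓕.F r) :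
    x ∈ (K₁ 𝓕 ρ₁).F r := by
  obtain ⟨y, hy, a, ha, rfl⟩ := hx
  rw [add_sub_cancel_right] at ha
  refine step_strict (K := (Fam.bot Φ M).F) (K' := (Fam.bot Φ M).F) (map_add ρ₁) H.deg₁
    (fun _ _ h _ => h) ?_ H.gr₁ r y a hy ha hx'
  intro r a ha
  have : a = 0 := ha
  rw [this, map_zero]
  exact AddSubgroup.zero_mem _

lemma K₁mono (r : ℤ) : (K₁ 𝓕 ρ₁).F r ≤ (K₁ 𝓕 ρ₁).F (r + 1) := by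
  intro x hx
  obtain ⟨a, ha, rfl⟩ := mem_K₁.1 hx
  exact mem_K₁.2 ⟨a, by rw [add_sub_cancel_right]; exact H.mono' _ ha, rfl⟩

lemma K₁le (r : ℤ) (x : M) (hx : x ∈ (K₁ 𝓕 ρ₁).F r) : x ∈ 𝓕.F r := by
  obtain ⟨a, ha, rfl⟩ := mem_K₁.1 hx
  have := H.deg₁ _ _ ha
  rwa [sub_add_cancel] at this

lemma gr₂_aux {ρ : M →ₗ[A] M} (hρ : ∀ r a, a ∈ 𝓕.F r → ρ a - R.s₂ a ∈ 𝓕.F r)
    (r : ℤ) (a x c : M) (ha : a ∈ 𝓕.F r) (hx : x ∈ (K₁ 𝓕 ρ₁).F (r + 1))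
    (hc : c ∈ 𝓕.F r) (h : ρ a = x + c) :
    ∃ k' ∈ (K₁ 𝓕 ρ₁).F r, ∃ a' ∈ 𝓕.F (r - 1), a = k' + a' := by
  obtain ⟨b, hb, rfl⟩ := mem_K₁.1 hx
  rw [add_sub_cancel_right] at hb
  have h1 : R.p₁ a ∈ 𝓕.F (r - 1) :=
    R.gr₂ (b := b) (c := c + (ρ₁ b - R.s₁ b) - (ρ a - R.s₂ a))
      (AddSubgroup.sub_mem _ (AddSubgroup.add_mem _ hc (H.a₁ _ _ hb)) (hρ _ _ ha))
      (by rw [h]; abel)
  have hd := R.hd₁ _ _ ha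
  refine ⟨ρ₁ (R.d₁ a), mem_K₁.2 ⟨_, hd, rfl⟩, R.p₁ a - (ρ₁ (R.d₁ a) - R.s₁ (R.d₁ a)),
    AddSubgroup.sub_mem _ h1 (H.a₁ _ _ hd), ?_⟩
  unfold Reg.p₁
  abel

lemma K₁_ρ {ρ : M →ₗ[A] M} (c : ∀ r a, a ∈ 𝓕.F r → ∃ b ∈ 𝓕.F (r + 1), ρ (ρ₁ a) = ρ₁ b)
    (r : ℤ) (x : M) (hx : x ∈ (K₁ 𝓕 ρ₁).F r) : ρ x ∈ (K₁ 𝓕 ρ₁).F (r + 1) := by
  have _ := H
  obtain ⟨a, ha, rfl⟩ := mem_K₁.1 hx
  obtain ⟨b, hb, h⟩ := c _ _ ha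
  exact mem_K₁.2 ⟨b, by rw [add_sub_cancel_right]; rwa [sub_add_cancel] at hb, h⟩

lemma inj₂ : ∀ r a, a ∈ 𝓕.F r → ρ₂ a ∈ (K₁ 𝓕 ρ₁).F (r + 1) → a ∈ (K₁ 𝓕 ρ₁).F r := by
  obtain ⟨r₀, h₀⟩ := H.bot
  exact step_inj (map_add ρ₂) r₀ h₀ H.K₁mono H.deg₂ H.strict₁ (H.K₁_ρ H.c₂₁) (H.gr₂_aux H.a₂)

lemma inj₂' : ∀ r a, a ∈ 𝓕.F r → ρ₂' a ∈ (K₁ 𝓕 ρ₁).F (r + 1) → a ∈ (K₁ 𝓕 ρ₁).F r := by
  obtain ⟨r₀, h₀⟩ := H.bot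
  exact step_inj (map_add ρ₂') r₀ h₀ H.K₁mono H.deg₂' H.strict₁ (H.K₁_ρ H.c₂₁') (H.gr₂_aux H.a₂')

lemma strict₂ (r : ℤ) (x : M) (hx : x ∈ (K₂ 𝓕 ρ₁ ρ₂).F (r + 1)) (hx' : x ∈ 𝓕.F r) :
    x ∈ (K₂ 𝓕 ρ₁ ρ₂).F r := by
  obtain ⟨y, hy, a, ha, rfl⟩ := hx
  rw [add_sub_cancel_right] at ha
  exact step_strict (K := (K₁ 𝓕 ρ₁).F) (K' := (K₁ 𝓕 ρ₁).F) (map_add ρ₂) H.deg₂
    H.strict₁ (H.K₁_ρ H.c₂₁) (H.gr₂_aux H.a₂) r y a hy ha hx'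

lemma K₂'mono (r : ℤ) : (K₂ 𝓕 ρ₁ ρ₂').F r ≤ (K₂ 𝓕 ρ₁ ρ₂').F (r + 1) := by
  intro x hx
  obtain ⟨a, ha, b, hb, rfl⟩ := mem_K₂.1 hx
  exact mem_K₂.2 ⟨a, by rw [add_sub_cancel_right]; exact H.mono' _ ha, b,
    by rw [add_sub_cancel_right]; exact H.mono' _ hb, rfl⟩

lemma K₂'le (r : ℤ) (x : M) (hx : x ∈ (K₂ 𝓕 ρ₁ ρ₂').F r) : x ∈ 𝓕.F r := by
  obtain ⟨a, ha, b, hb, rfl⟩ := mem_K₂.1 hx
  have h1 := H.deg₁ _ _ ha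
  have h2 := H.deg₂' _ _ hb
  rw [sub_add_cancel] at h1 h2
  exact AddSubgroup.add_mem _ h1 h2

lemma K₃le (r : ℤ) (x : M) (hx : x ∈ (K₃ 𝓕 ρ₁ ρ₂ ρ₃).F r) : x ∈ 𝓕.F r := by
  obtain ⟨a, ha, b, hb, c, hc, rfl⟩ := mem_K₃.1 hx
  have h1 := H.deg₁ _ _ ha
  have h2 := H.deg₂ _ _ hb
  have h3 := H.deg₃ _ _ hc
  rw [sub_add_cancel] at h1 h2 h3
  exact AddSubgroup.add_mem _ (AddSubgroup.add_mem _ h1 h2) h3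

lemma K₃mono (r : ℤ) : (K₃ 𝓕 ρ₁ ρ₂ ρ₃).F r ≤ (K₃ 𝓕 ρ₁ ρ₂ ρ₃).F (r + 1) := by
  intro x hx
  obtain ⟨a, ha, b, hb, c, hc, rfl⟩ := mem_K₃.1 hx
  exact mem_K₃.2 ⟨a, by rw [add_sub_cancel_right]; exact H.mono' _ ha, b,
    by rw [add_sub_cancel_right]; exact H.mono' _ hb, c,
    by rw [add_sub_cancel_right]; exact H.mono' _ hc, rfl⟩

lemma K₂_ρ₃ (r : ℤ) (x : M) (hx : x ∈ (K₂ 𝓕 ρ₁ ρ₂').F r) : ρ₃ x ∈ (K₂ 𝓕 ρ₁ ρ₂).F (r + 1) := by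
  obtain ⟨a, ha, b, hb, rfl⟩ := mem_K₂.1 hx
  obtain ⟨a₁, ha₁, a₂, ha₂, h⟩ := H.c₃₁ _ _ ha
  obtain ⟨b₁, hb₁, b₂, hb₂, h'⟩ := H.c₃₂ _ _ hb
  rw [sub_add_cancel] at ha₁ ha₂ hb₁ hb₂
  refine mem_K₂.2 ⟨a₁ + b₁, ?_, a₂ + b₂, ?_, ?_⟩
  · rw [add_sub_cancel_right]; exact AddSubgroup.add_mem _ ha₁ hb₁
  · rw [add_sub_cancel_right]; exact AddSubgroup.add_mem _ ha₂ hb₂
  · rw [map_add, h, h', map_add, map_add]; abel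

lemma gr₃ (r : ℤ) (a x c : M) (ha : a ∈ 𝓕.F r) (hx : x ∈ (K₂ 𝓕 ρ₁ ρ₂).F (r + 1))
    (hc : c ∈ 𝓕.F r) (h : ρ₃ a = x + c) :
    ∃ k' ∈ (K₂ 𝓕 ρ₁ ρ₂').F r, ∃ a' ∈ 𝓕.F (r - 1), a = k' + a' := by
  obtain ⟨b, hb, b', hb', rfl⟩ := mem_K₂.1 hx
  rw [add_sub_cancel_right] at hb hb'
  have h1 : R.p₂ (R.p₁ a) ∈ 𝓕.F (r - 1) :=
    R.gr₃ (b := b) (b' := b') (c := c + (ρ₁ b - R.s₁ b) + (ρ₂ b' - R.s₂ b') - (ρ₃ a - R.s₃ a))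
      (AddSubgroup.sub_mem _ (AddSubgroup.add_mem _ (AddSubgroup.add_mem _ hc (H.a₁ _ _ hb))
        (H.a₂ _ _ hb')) (H.a₃ _ _ ha))
      (by rw [h]; abel)
  have hd := R.hd₁ _ _ ha
  have hd' := R.hd₂ _ _ (R.hp₁ ha)
  refine ⟨ρ₁ (R.d₁ a) + ρ₂' (R.d₂ (R.p₁ a)), mem_K₂.2 ⟨_, hd, _, hd', rfl⟩,
    R.p₂ (R.p₁ a) - (ρ₁ (R.d₁ a) - R.s₁ (R.d₁ a)) -
      (ρ₂' (R.d₂ (R.p₁ a)) - R.s₂ (R.d₂ (R.p₁ a))),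
    AddSubgroup.sub_mem _ (AddSubgroup.sub_mem _ h1 (H.a₁ _ _ hd)) (H.a₂' _ _ hd'), ?_⟩
  have e1 : R.p₂ (R.p₁ a) = R.p₁ a - R.s₂ (R.d₂ (R.p₁ a)) := rfl
  have e2 : R.p₁ a = a - R.s₁ (R.d₁ a) := rfl
  rw [e1]
  generalize R.d₂ (R.p₁ a) = z
  rw [e2]
  abel

lemma inj₃ : ∀ r a, a ∈ 𝓕.F r → ρ₃ a ∈ (K₂ 𝓕 ρ₁ ρ₂).F (r + 1) → a ∈ (K₂ 𝓕 ρ₁ ρ₂').F r := by
  obtain ⟨r₀, h₀⟩ := H.bot
  exact step_inj (map_add ρ₃) r₀ h₀ H.K₂'mono H.deg₃ H.strict₂ H.K₂_ρ₃ H.gr₃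

lemma good_K₁ (m : ℤ) (h : Good N S (𝓕.shift (m + 1))) : Good N S ((K₁ 𝓕 ρ₁).shift m) := by
  refine good_addRange N S (𝓚' := Fam.bot Φ M) m ?_ ?_ H.inj₁ (good_bot N S _) (good_bot N S _) h
  · intro r a ha
    have : a = 0 := ha
    rw [this]
    exact AddSubgroup.zero_mem _
  · intro r a ha
    have : a = 0 := ha
    rw [this, map_zero]
    exact AddSubgroup.zero_mem _

lemma good_K₂ (m : ℤ) (h : Good N S (𝓕.shift (m + 1))) (h' : Good N S (𝓕.shift (m + 1 + 1))) :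
    Good N S ((K₂ 𝓕 ρ₁ ρ₂).shift m) :=
  good_addRange N S m H.K₁le (H.K₁_ρ H.c₂₁) H.inj₂ (H.good_K₁ N S _ h') (H.good_K₁ N S _ h) h

lemma good_K₂' (m : ℤ) (h : Good N S (𝓕.shift (m + 1))) (h' : Good N S (𝓕.shift (m + 1 + 1))) :
    Good N S ((K₂ 𝓕 ρ₁ ρ₂').shift m) :=
  good_addRange N S m H.K₁le (H.K₁_ρ H.c₂₁') H.inj₂' (H.good_K₁ N S _ h') (H.good_K₁ N S _ h) h

lemma good_K₃ (m : ℤ) (h : Good N S (𝓕.shift (m + 1))) (h' : Good N S (𝓕.shift (m + 1 + 1)))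
    (h'' : Good N S (𝓕.shift (m + 1 + 1 + 1))) :
    Good N S ((K₃ 𝓕 ρ₁ ρ₂ ρ₃).shift m) :=
  good_addRange N S m H.K₂'le H.K₂_ρ₃ H.inj₃ (H.good_K₂' N S _ h' h'') (H.good_K₂ N S _ h h') h

/-- Every element is congruent to a reduced one modulo the third kernel family. -/
lemma reduce (Red : ℤ → AddSubgroup M) (hmono : ∀ r, Red r ≤ Red (r + 1))
    (hRed : ∀ r a, a ∈ 𝓕.F r → R.p₃ (R.p₂ (R.p₁ a)) ∈ Red r) :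
    ∀ r a, a ∈ 𝓕.F r → ∃ x ∈ (K₃ 𝓕 ρ₁ ρ₂ ρ₃).F r, ∃ z ∈ Red r, a = x + z := by
  obtain ⟨r₀, h₀⟩ := H.bot
  have base : ∀ r ≤ r₀, ∀ a, a ∈ 𝓕.F r → ∃ x ∈ (K₃ 𝓕 ρ₁ ρ₂ ρ₃).F r, ∃ z ∈ Red r, a = x + z := by
    intro r hr a ha
    rw [h₀ r hr, AddSubgroup.mem_bot] at ha
    exact ⟨0, AddSubgroup.zero_mem _, 0, AddSubgroup.zero_mem _, by rw [ha, add_zero]⟩
  intro r
  rcases le_total r r₀ with hr | hr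
  · exact base r hr
  · induction r, hr using Int.leInduction with
    | base => exact base _ le_rfl
    | succ r _ ih =>
      intro a ha
      have hd₁ := R.hd₁ _ _ ha
      have hd₂ := R.hd₂ _ _ (R.hp₁ ha)
      have hd₃ := R.hd₃ _ _ (R.hp₂ (R.hp₁ ha))
      have hz := hRed _ _ ha
      have e1 : R.p₃ (R.p₂ (R.p₁ a)) = a - R.s₁ (R.d₁ a) - R.s₂ (R.d₂ (R.p₁ a)) -
        R.s₃ (R.d₃ (R.p₂ (R.p₁ a))) := rfl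
      rw [e1] at hz
      generalize R.d₃ (R.p₂ (R.p₁ a)) = b₃ at *
      generalize R.d₂ (R.p₁ a) = b₂ at *
      generalize R.d₁ a = b₁ at *
      have hlow : (ρ₁ b₁ - R.s₁ b₁) + (ρ₂ b₂ - R.s₂ b₂) + (ρ₃ b₃ - R.s₃ b₃) ∈ 𝓕.F r := by
        rw [add_sub_cancel_right] at hd₁ hd₂ hd₃
        exact AddSubgroup.add_mem _ (AddSubgroup.add_mem _ (H.a₁ _ _ hd₁) (H.a₂ _ _ hd₂))
          (H.a₃ _ _ hd₃)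
      obtain ⟨x, hx, z, hz', h⟩ := ih _ hlow
      refine ⟨ρ₁ b₁ + ρ₂ b₂ + ρ₃ b₃ - x,
        AddSubgroup.sub_mem _ (mem_K₃.2 ⟨_, hd₁, _, hd₂, _, hd₃, rfl⟩) (H.K₃mono _ hx),
        a - R.s₁ b₁ - R.s₂ b₂ - R.s₃ b₃ - z, AddSubgroup.sub_mem _ hz (hmono _ hz'), ?_⟩
      have : x = (ρ₁ b₁ - R.s₁ b₁) + (ρ₂ b₂ - R.s₂ b₂) + (ρ₃ b₃ - R.s₃ b₃) - z := by
        rw [h]; abel
      rw [this]
      abel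

end RegSeq

end three

end Crest.Agent.R178
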