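import Crest.Agent.R178.Induced

/-!
The `t`-direction: two short exact sequences relating `W` with its translate `W'`.
-/

set_option autoImplicit false
set_option linter.unusedSimpArgs false
set_option linter.unusedSectionVars false

namespace Crest.Agent.R178

open Gen

variable {W W' : Type} [AddCommGroup W] [Module ℂ W] [AddCommGroup W'] [Module ℂ W']

/-- evaluation at `t = c` -/
noncomputable def evc (W : Type) [AddCommGroup W] [Module ℂ W] (c : ℂ) : (ℕ →₀ W) →ₗ[ℂ] W :=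
  Finsupp.lsum ℂ fun k => c ^ k • LinearMap.id

@[simp] lemma evc_single (c : ℂ) (k : ℕ) (w : W) : evc W c (Finsupp.single k w) = c ^ k • w := by
  simp [evc]

/-- multiplication by `t - c` -/
noncomputable def tc (W : Type) [AddCommGroup W] [Module ℂ W] (c : ℂ) :
    (ℕ →₀ W) →ₗ[ℂ] (ℕ →₀ W) := shiftT W - c • LinearMap.id

lemma tc_apply (c : ℂ) (p : ℕ →₀ W) : tc W c p = shiftT W p - c • p := rfl

lemma evc_tc (c : ℂ) (p : ℕ →₀ W) : evc W c (tc W c p) = 0 := by
  have : evc W c ∘ₗ tc W c = 0 := Finsupp.lhom_ext fun k w => by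
    simp [tc_apply, smul_smul, pow_succ, mul_comm]
  exact LinearMap.congr_fun this p

lemma tc_inj (c : ℂ) (p : ℕ →₀ W) (h : tc W c p = 0) : p = 0 := by
  have h1 : ∀ k, p k = c • p (k + 1) := fun k => by
    have := DFunLike.congr_fun h (k + 1)
    rw [tc_apply, Finsupp.sub_apply, shiftT_succ, Finsupp.zero_apply, sub_eq_zero] at this
    exact this
  have h2 : ∀ n k, p k = c ^ n • p (k + n) := by
    intro n
    induction n with
    | zero => simp
    | succ n ih => intro k; rw [ih k, h1 (k + n), smul_smul, pow_succ, add_assoc]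
  ext k
  obtain ⟨n, hn⟩ : ∃ n, ∀ l ∈ p.support, l < n := ⟨p.support.sup id + 1, fun l hl =>
    Nat.lt_succ_of_le (Finset.le_sup (f := id) hl)⟩
  have : p (k + n) = 0 := by
    by_contra hc
    have := hn _ (Finsupp.mem_support_iff.2 hc)
    omega
  rw [h2 n k, this, smul_zero, Finsupp.zero_apply]

lemma tc_div (c : ℂ) (r : ℤ) (p : ℕ →₀ W) (hp : ∀ k : ℕ, p k ∈ TF W (r - k)) :
    ∃ p' : ℕ →₀ W, (∀ k : ℕ, p' k ∈ TF W (r - 1 - k)) ∧
      p = tc W c p' + Finsupp.single 0 (evc W c p) := by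
  have key : ∀ (k : ℕ) (w : W), ∃ p' : ℕ →₀ W, (∀ l : ℕ, k ≤ l → p' l = 0) ∧
      Finsupp.single k w = tc W c p' + Finsupp.single 0 (c ^ k • w) := by
    intro k
    induction k with
    | zero => intro w; exact ⟨0, fun _ _ => rfl, by simp⟩
    | succ k ih =>
      intro w
      obtain ⟨p', hp', h⟩ := ih (c • w)
      refine ⟨p' + Finsupp.single k w, fun l hl => ?_, ?_⟩
      · rw [Finsupp.add_apply, hp' l (by omega), Finsupp.single_eq_of_ne (by omega), add_zero]
      · rw [map_add, tc_apply c (Finsupp.single k w), shiftT_single, Finsupp.smul_single, h,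
          smul_smul, ← pow_succ]
        abel
  choose q hq hq' using key
  refine ⟨∑ k ∈ p.support, q k (p k), fun l => mem_TF.2 fun hl => ?_, ?_⟩
  · rw [Finsupp.finsetSum_apply]
    refine Finset.sum_eq_zero fun k hk => hq _ _ _ ?_
    by_contra hc
    exact Finsupp.mem_support_iff.1 hk (mem_TF.1 (hp k) (by omega))
  · conv_lhs => rw [← Finsupp.sum_single p, Finsupp.sum]
    have : evc W c p = ∑ k ∈ p.support, c ^ k • p k := by
      simp [evc, Finsupp.sum]
    rw [this, map_sum, Finsupp.single_finsetSum, ← Finset.sum_add_distrib]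
    exact Finset.sum_congr rfl fun k _ => hq' k (p k)

variable (T : Sl2 W) (c : ℂ)

/-- `Ω - c` -/
noncomputable def DD : Module.End ℂ (W × W) := T.Ω - c • LinearMap.id

lemma DD_apply (y : W × W) : DD T c y = T.Ω y - c • y := rfl

/-- right multiplication by `t - c` -/
noncomputable def phiC : Q W →ₗ[ℂ] Q W := (tc W c).prodMap (DD T c)

lemma phiC_apply (x : Q W) : phiC T c x = (tc W c x.1, DD T c x.2) := rfl

lemma phiC_comm (g : Gen) (x : Q W) : phiC T c (T.Qop g x) = T.Qop g (phiC T c x) := by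
  have pΩ := T.pow_comm (φ := T.Ω) (fun _ => rfl)
  have : phiC T c ∘ₗ T.Qop g = T.Qop g ∘ₗ phiC T c := by
    refine Q_hom_ext (fun k w => ?_) (fun y => ?_) <;> cases g <;>
      simp [phiC_apply, tc_apply, DD_apply, Sl2.Qop_e, Sl2.Qop_h, Sl2.Qop_f, Sl2.Qop_t,
        Sl2.Qop_v₁, Sl2.Qop_v₂, Sl2.mr_single, T.Ω_ψe, T.Ω_ψh, T.Ω_ψf, pow_succ, pΩ,
        -Finsupp.smul_single, -Finsupp.mapRange.linearMap_apply] <;> abel
  exact LinearMap.congr_fun this x

/-- right multiplication by `t - c` as a module map -/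
noncomputable def phiQ : QM T →ₗ[AA] QM T where
  toFun x := phiC T c x
  map_add' := map_add (phiC T c)
  map_smul' a := intertwine T.Qrep T.Qrep (phiC T c)
    (fun g x => by rw [Sl2.Qrep_γ, phiC_comm]) a

lemma evc_comm (g : Gen) (x : Q W) : evc W c (T.Qop g x).1 = T.Wop c g (evc W c x.1) := by
  have : evc W c ∘ₗ LinearMap.fst ℂ _ _ ∘ₗ T.Qop g =
      T.Wop c g ∘ₗ evc W c ∘ₗ LinearMap.fst ℂ _ _ := by
    refine Q_hom_ext (fun k w => ?_) (fun y => ?_) <;> cases g <;>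
      simp [Sl2.Qop_e, Sl2.Qop_h, Sl2.Qop_f, Sl2.Qop_t, Sl2.Qop_v₁, Sl2.Qop_v₂, Sl2.Wop,
        pow_succ', mul_smul]
  exact LinearMap.congr_fun this x

/-- evaluation at `t = c` as a module map -/
noncomputable def evQ : QM T →ₗ[AA] WM T c where
  toFun x := evc W c x.1
  map_add' x y := map_add (evc W c) x.1 y.1
  map_smul' a := intertwine T.Qrep (T.Wrep c) (evc W c ∘ₗ LinearMap.fst ℂ _ _)
    (fun g x => by rw [Sl2.Qrep_γ, Sl2.Wrep_γ]; exact evc_comm T c g x) a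

/-- the kernel family of evaluation -/
noncomputable def JFam : Fam ΦA (QM T) where
  F r := (QFam T).F r ⊓ (evQ T c).toAddMonoidHom.ker
  smul_mem := by
    intro r s a x ha hx
    refine ⟨(QFam T).smul_mem ha hx.1, ?_⟩
    have h : evQ T c x = 0 := hx.2
    change evQ T c (a • x) = 0
    rw [map_smul, h, smul_zero]

lemma ses_β (N : ℕ) :
    SES (Λ := Lam ΦA N) (M₁ := Gam N (JFam T c)) (M₂ := Gam N ((QFam T).shift 0))
      (M₃ := Gam N (Fam.top ΦA (WM T c)))
      (Gmap N (JFam T c) ((QFam T).shift 0) LinearMap.id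
        fun _ x hx => by rw [Fam.shift_F, sub_zero]; exact hx.1)
      (Gmap N ((QFam T).shift 0) (Fam.top ΦA (WM T c)) (evQ T c) fun _ _ _ => trivial) := by
  refine Gmap_ses N _ _ _ _ _ _ _ (fun _ _ _ h => h) (fun j z _ => ⟨emb W z, ?_, ?_⟩)
    (fun j x hx => hx.2) (fun j y hy h => ⟨y, ⟨?_, h⟩, rfl⟩)
  · refine ⟨fun k => mem_TF.2 fun hk => ?_, Submodule.zero_mem _, Submodule.zero_mem _⟩
    rw [emb_apply]
    exact Finsupp.single_eq_of_ne (by omega)
  · change evc W c (Finsupp.single 0 z) = z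
    simp
  · rwa [Fam.shift_F, sub_zero] at hy

/-- Data exhibiting `W'` as the translate of `W`. -/
structure Trans (T : Sl2 W) (c : ℂ) (T' : Sl2 W') where
  A : W' →ₗ[ℂ] W × W
  A' : W × W →ₗ[ℂ] W'
  κ : ℂ
  hκ : κ ≠ 0
  A'A : ∀ w, A' (A w) = κ • w
  DA : ∀ y, DD T c y + A (A' y) = κ • y
  Ae : ∀ w, A (T'.e w) = T.ψe (A w)
  Ah : ∀ w, A (T'.h w) = T.ψh (A w)
  Af : ∀ w, A (T'.f w) = T.ψf (A w)

namespace Trans

variable {T c} {T' : Sl2 W'} (D : Trans T c T')

lemma D_A (w : W') : DD T c (D.A w) = 0 := by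
  have := D.DA (D.A w)
  rw [D.A'A, map_smul] at this
  exact add_eq_right.1 this

lemma A'_D (y : W × W) : D.A' (DD T c y) = 0 := by
  have := congrArg D.A' (D.DA y)
  rw [map_add, D.A'A, map_smul] at this
  exact add_eq_right.1 this

lemma Ω_A (w : W') : T.Ω (D.A w) = c • D.A w := sub_eq_zero.1 (D.D_A w)

/-- the embedding of the translate -/
noncomputable def AQ : WM T' (c + 1) →ₗ[AA] QM T where
  toFun w := ((0, D.A w) : Q W)
  map_add' x y := Prod.ext (add_zero _).symm (map_add D.A x y)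
  map_smul' a := intertwine (T'.Wrep (c + 1)) T.Qrep (LinearMap.inr ℂ _ _ ∘ₗ D.A)
    (fun g x => by
      rw [Sl2.Qrep_γ, Sl2.Wrep_γ]
      cases g <;>
        simp [Sl2.Qop_e, Sl2.Qop_h, Sl2.Qop_f, Sl2.Qop_t, Sl2.Qop_v₁, Sl2.Qop_v₂, Sl2.Wop, D.Ae,
          D.Ah, D.Af, D.Ω_A, add_smul, Prod.mk_zero_zero]) a

lemma AQ_mem (r : ℤ) (hr : -1 ≤ r) (w : WM T' (c + 1)) : D.AQ w ∈ (QFam T).F r :=
  ⟨fun _ => Submodule.zero_mem _, mem_TF.2 fun h => by omega, mem_TF.2 fun h => by omega⟩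

lemma phiQ_mem (r : ℤ) (hr : 0 ≤ r) (x : QM T) (hx : x ∈ (QFam T).F (r - 1)) :
    phiQ T c x ∈ (JFam T c).F r := by
  refine ⟨⟨fun k => mem_TF.2 fun hk => ?_, mem_TF.2 fun h => by omega,
    mem_TF.2 fun h => by omega⟩, evc_tc (W := W) c x.1⟩
  change tc W c x.1 k = 0
  rw [tc_apply, Finsupp.sub_apply, Finsupp.smul_apply, mem_TF.1 (hx.1 k) (by omega), smul_zero,
    sub_zero]
  cases k with
  | zero => exact shiftT_zero _
  | succ k => rw [shiftT_succ]; exact mem_TF.1 (hx.1 k) (by omega)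

lemma ses_α (N : ℕ) :
    SES (Λ := Lam ΦA N) (M₁ := Gam N (Fam.top ΦA (WM T' (c + 1))))
      (M₂ := Gam N (((QFam T).shift 1).prod (Fam.top ΦA (WM T' (c + 1)))))
      (M₃ := Gam N (JFam T c))
      (Gmap N (Fam.top ΦA (WM T' (c + 1))) (((QFam T).shift 1).prod (Fam.top ΦA (WM T' (c + 1))))
        (LinearMap.inl AA _ _ ∘ₗ D.AQ)
        fun j x _ => ⟨D.AQ_mem _ (by omega) x, trivial⟩)
      (Gmap N (((QFam T).shift 1).prod (Fam.top ΦA (WM T' (c + 1)))) (JFam T c)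
        (LinearMap.coprod (phiQ T c) D.AQ)
        fun j x hx => AddSubgroup.add_mem _ (phiQ_mem _ (by omega) _ hx.1)
          ⟨D.AQ_mem _ (by omega) _, map_zero (evc W c)⟩) := by
  refine Gmap_ses N _ _ _ _ _ _ _ (fun j x _ h => ?_) (fun j z hz => ?_) (fun j x _ => ?_)
    (fun j y hy h => ?_)
  · have h1 : D.A x = 0 := congrArg (fun z => z.1.2) h
    have h2 := D.A'A x
    rw [h1, map_zero] at h2
    exact (smul_eq_zero.1 h2.symm).resolve_left D.hκ
  · obtain ⟨p', hp', hp⟩ := tc_div c j z.1 hz.1.1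
    have h0 : evc W c z.1 = 0 := hz.2
    rw [h0, Finsupp.single_zero, add_zero] at hp
    refine ⟨((p', D.κ⁻¹ • z.2), D.A' (D.κ⁻¹ • z.2)),
      ⟨⟨hp', mem_TF.2 fun h => by omega, mem_TF.2 fun h => by omega⟩, trivial⟩, ?_⟩
    refine Prod.ext ?_ ?_
    · change tc W c p' + 0 = z.1
      rw [add_zero, ← hp]
    · change DD T c (D.κ⁻¹ • z.2) + D.A (D.A' (D.κ⁻¹ • z.2)) = z.2
      rw [D.DA, smul_smul, mul_inv_cancel₀ D.hκ, one_smul]
  · refine Prod.ext ?_ ?_
    · change tc W c 0 + 0 = 0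
      simp
    · change DD T c (D.A x) + D.A 0 = 0
      rw [D.D_A, map_zero, add_zero]
  · obtain ⟨⟨p, y⟩, w⟩ := y
    have h1 : tc W c p + 0 = 0 := congrArg Prod.fst h
    have h2 : DD T c y + D.A w = 0 := congrArg Prod.snd h
    rw [add_zero] at h1
    have h3 : w = 0 := by
      have := congrArg D.A' h2
      rw [map_add, D.A'_D, zero_add, D.A'A, map_zero] at this
      exact (smul_eq_zero.1 this).resolve_left D.hκ
    subst h3
    have h4 : D.A (0 : W') = 0 := map_zero _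
    have h5 : DD T c y = 0 := by
      rw [← h2]; exact (add_zero _).symm.trans (congrArg _ h4.symm)
    refine ⟨D.A' (D.κ⁻¹ • y), trivial, Prod.ext (Prod.ext (tc_inj c p h1).symm ?_) rfl⟩
    change D.A (D.A' (D.κ⁻¹ • y)) = y
    have := D.DA (D.κ⁻¹ • y)
    rwa [map_smul, h5, smul_zero, zero_add, smul_smul, mul_inv_cancel₀ D.hκ, one_smul] at this

end Trans

section main

variable (S : ModuleCat.{0} (Lam ΦA 5)) (hS : ∀ m : Fin 5, m ≠ 0 → ∀ s : S, idem ΦA m • s = 0)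

include hS in
lemma good_free (ι : Type) [Fintype ι] [DecidableEq ι] (m : ℤ) (h1 : 1 ≤ m) (h4 : m ≤ 4) :
    Good 5 S ((Fam.free ΦA ι).shift m) := by
  obtain ⟨m', hm', rfl⟩ : ∃ m' : Fin 5, m' ≠ 0 ∧ m = (m' : ℤ) :=
    ⟨⟨m.toNat, by omega⟩, fun h => by have := congrArg Fin.val h; simp at this; omega,
      by simp; omega⟩
  have := free_projective ΦA ι m'
  refine ⟨fpd_of_projective, fun i => ?_⟩
  cases i with
  | zero => exact (ev_zero_iff S).2 (free_hom_zero ΦA ι m' (hS m' hm'))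
  | succ i => exact ev_succ_of_projective S i

variable [FiniteDimensional ℂ W]

include hS in
lemma good_Q₁ : Good 5 S ((QFam T).shift 1) := by
  let b := Module.finBasis ℂ W
  have h := ses_piQ T b 5 1
  have h₁ := (regSeq_T T b).good_K₃ 5 S 1 (good_free S hS _ _ (by omega) (by omega))
    (good_free S hS _ _ (by omega) (by omega)) (good_free S hS _ _ (by omega) (by omega))
  have h₂ := good_free S hS (Fin (Module.finrank ℂ W)) 1 (by omega) (by omega)
  exact ⟨h.fpd₃ h₁.1 h₂.1, h.ev₃_all h₁.2 h₂.2⟩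

include hS in
lemma good_Q₀ : FPD (Lam ΦA 5) (Gam 5 ((QFam T).shift 0)) ∧
    ∀ i, EV S (Gam 5 ((QFam T).shift 0)) (i + 1) := by
  let b := Module.finBasis ℂ W
  have h := ses_piQ T b 5 0
  have h₁ := (regSeq_T T b).good_K₃ 5 S 0 (good_free S hS _ _ (by omega) (by omega))
    (good_free S hS _ _ (by omega) (by omega)) (good_free S hS _ _ (by omega) (by omega))
  have h₂ : Module.Projective (Lam ΦA 5)
      (Gam 5 ((Fam.free ΦA (Fin (Module.finrank ℂ W))).shift 0)) :=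
    free_projective ΦA (Fin (Module.finrank ℂ W)) (0 : Fin 5)
  exact ⟨h.fpd₃ h₁.1 fpd_of_projective,
    fun i => h.ev₃_succ (h₁.2 i) (ev_succ_of_projective S i)⟩

lemma finite_top : Module.Finite (Lam ΦA 5) (Gam 5 (Fam.top ΦA (WM T c))) := by
  let b := Module.finBasis ℂ W
  have h₂ : Module.Finite (Lam ΦA 5)
      (Gam 5 ((Fam.free ΦA (Fin (Module.finrank ℂ W))).shift 0)) :=
    free_finite ΦA (Fin (Module.finrank ℂ W)) (0 : Fin 5)
  have h₃ := Module.Finite.of_surjective _ (ses_piQ T b 5 0).surj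
  exact Module.Finite.of_surjective _ (ses_β T c 5).surj

variable {T c} {T' : Sl2 W'}

include hS in
lemma step_fpd (D : Trans T c T') (h : FPD (Lam ΦA 5) (Gam 5 (Fam.top ΦA (WM T' (c + 1))))) :
    FPD (Lam ΦA 5) (Gam 5 (Fam.top ΦA (WM T c))) :=
  (ses_β T c 5).fpd₃ ((D.ses_α 5).fpd₃ h ((Gprod_ses 5 _ _).fpd₂ (good_Q₁ T S hS).1 h))
    (good_Q₀ T S hS).1

include hS in
lemma step_ev (D : Trans T c T') (i : ℕ) (h : EV S (Gam 5 (Fam.top ΦA (WM T c))) (i + 2)) :
    EV S (Gam 5 (Fam.top ΦA (WM T' (c + 1)))) i := by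
  have h₁ : EV S (Gam 5 (JFam T c)) (i + 1) := (ses_β T c 5).ev₁ ((good_Q₀ T S hS).2 i) h
  exact (D.ses_α 5).ev₁_of_factor
    (Gmap 5 (Fam.top ΦA (WM T' (c + 1))) ((QFam T).shift 1) D.AQ
      fun j x _ => D.AQ_mem _ (by omega) x)
    (Gmap 5 ((QFam T).shift 1) (((QFam T).shift 1).prod (Fam.top ΦA (WM T' (c + 1))))
      (LinearMap.inl AA _ _) fun _ _ hx => ⟨hx, trivial⟩)
    rfl ((good_Q₁ T S hS).2 i) h₁

end main

end Crest.Agent.R178
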